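import Crest.Agent.N218.Pm.Defs

/-!
# Row 218 (helper78): changing frames by families of equivariant isomorphisms
-/

set_option autoImplicit false
set_option linter.unusedSectionVars false

open Set Topology unitInterval

noncomputable section

namespace Crest.Agent.N218.Pm

variable {B B' : Type} [TopologicalSpace B] [TopologicalSpace B'] {k : ℕ} {E E' : Type}
  [NormedAddCommGroup E] [NormedSpace ℝ E] [NormedAddCommGroup E'] [NormedSpace ℝ E']

/-- continuous families of injective equivariant maps -/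
structure Gi (g : B → V k E →L[ℝ] V k E) : Prop where
  ct : Continuous g
  eq : ∀ b y, g b (sh k E y) = sh k E (g b y)
  inj : ∀ b y, g b y = 0 → y = 0

/-- change the frames of a problem -/
def Pb.cf (g g' : B → V k E →L[ℝ] V k E) (P : Pb B k E) : Pb B k E :=
  ⟨{x | (x.1, g x.1 x.2) ∈ P.O}, fun x => g' x.1 (P.h (x.1, g x.1 x.2))⟩

/-- change the frames of a family -/
def PM.cf (g g' : B → V k E →L[ℝ] V k E) (A : PM B k E) : PM B k E :=
  ⟨{x | (x.1, g x.1 x.2) ∈ A.O}, fun x => g' x.1 (A.P (x.1, g x.1 x.2)),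
    fun b => g' b * A.n b * g b⟩

namespace Cj

theorem sh_it (n : ℕ) (y : V k E) (i : Ix k) : (sh k E)^[n] y i = y (i - n) := by
  induction n generalizing i with
  | zero => simp
  | succ n ih => rw [Function.iterate_succ_apply', sh_apply, ih]; congr 1; push_cast; ring

theorem mn_it (y : V k E) : mn y = (1 / 2 : ℝ) • (y - (sh k E)^[2 ^ k] y) := by
  funext i
  have : i - ((2 ^ k : ℕ) : Ix k) = i + 2 ^ k := by
    have := ZMod.natCast_self (2 ^ (k + 1))
    push_cast at this ⊢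
    linear_combination (-1 : Ix k) * this
  simp only [mn, Pi.smul_apply, Pi.sub_apply, sh_it, this]

/-- equivariant maps commute with `mn` -/
theorem mn_eqv {L : V k E →L[ℝ] V k E'} (h : ∀ y, L (sh k E y) = sh k E' (L y)) (y : V k E) :
    mn (L y) = L (mn y) := by
  rw [mn_it, mn_it, map_smul, map_sub, Function.Semiconj.iterate_right h (2 ^ k) y]

theorem cp_sep {X Y : Type} [TopologicalSpace X] [TopologicalSpace Y] {S : Set X}
    (hS : IsCompact S) {f : X → Y} (hf : ContinuousOn f S) {T : Set Y} (hT : IsClosed T) :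
    IsCompact {x ∈ S | f x ∈ T} := by
  obtain ⟨u, hu, e⟩ := continuousOn_iff_isClosed.1 hf T hT
  convert hS.inter_left hu using 1
  rw [← e]; exact inter_comm _ _


theorem pb_ext {P Q : Pb B k E} (a : P.O = Q.O) (b : P.h = Q.h) : P = Q := by
  cases P; cases Q; congr

theorem pull_fst {P : Pb B k E} (h : P.Ok) {Y : Type} [TopologicalSpace Y] [CompactSpace Y] :
    (P.pull (Prod.fst : B × Y → B)).Ok := by
  have c : Continuous fun x : (B × Y) × V k E => (x.1.1, x.2) := by fun_prop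
  refine ⟨h.op.preimage c, fun x a => h.inv _ a, h.ct.comp c.continuousOn fun _ a => a,
    fun x a => h.eq _ a, ?_, fun x a => h.fr _ a⟩
  convert (h.cp.prod (isCompact_univ (X := Y))).image
    (f := fun x => ((x.1.1, x.2), x.1.2)) (by fun_prop) using 1
  ext x
  exact ⟨fun a => ⟨((x.1.1, x.2), x.1.2), ⟨a, trivial⟩, rfl⟩, by rintro ⟨z, a, rfl⟩; exact a.1⟩


/-- block operators -/
def blk (a : V k E →L[ℝ] V k E) (b : V k E' →L[ℝ] V k E) (c : V k E →L[ℝ] V k E')
    (d : V k E' →L[ℝ] V k E') : V k (E × E') →L[ℝ] V k (E × E') where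
  toFun w := pr (a (s1 w) + b (s2 w)) (c (s1 w) + d (s2 w))
  map_add' w w' := by
    rw [show s1 (w + w') = s1 w + s1 w' from rfl, show s2 (w + w') = s2 w + s2 w' from rfl]
    funext i; simp [pr, add_add_add_comm]
  map_smul' t w := by
    rw [show s1 (t • w) = t • s1 w from rfl, show s2 (t • w) = t • s2 w from rfl]
    funext i; simp [pr]
  cont := by unfold pr s1 s2; fun_prop

theorem blk_apply (a : V k E →L[ℝ] V k E) (b : V k E' →L[ℝ] V k E) (c : V k E →L[ℝ] V k E')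
    (d : V k E' →L[ℝ] V k E') (w : V k (E × E')) :
    blk a b c d w = pr (a (s1 w) + b (s2 w)) (c (s1 w) + d (s2 w)) := rfl
theorem s1_pr (y : V k E) (z : V k E') : s1 (pr y z) = y := rfl
theorem s2_pr (y : V k E) (z : V k E') : s2 (pr y z) = z := rfl
theorem pr_zero : pr (0 : V k E) (0 : V k E') = 0 := funext fun _ => rfl
theorem s1_z : s1 (0 : V k (E × E')) = 0 := rfl
theorem s2_z : s2 (0 : V k (E × E')) = 0 := rfl
theorem pr_s (w : V k (E × E')) : pr (s1 w) (s2 w) = w := rfl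

theorem blk_ct [FiniteDimensional ℝ E] [FiniteDimensional ℝ E'] {a : B → V k E →L[ℝ] V k E}
    {b : B → V k E' →L[ℝ] V k E} {c : B → V k E →L[ℝ] V k E'} {d : B → V k E' →L[ℝ] V k E'}
    (ha : Continuous a) (hb : Continuous b) (hc : Continuous c) (hd : Continuous d) :
    Continuous fun x => blk (a x) (b x) (c x) (d x) :=
  continuous_clm_apply.2 fun w => by simp only [blk_apply]; unfold pr; fun_prop

theorem blk_eq {a : V k E →L[ℝ] V k E} {b : V k E' →L[ℝ] V k E} {c : V k E →L[ℝ] V k E'}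
    {d : V k E' →L[ℝ] V k E'} (ha : ∀ y, a (sh k E y) = sh k E (a y))
    (hb : ∀ y, b (sh k E' y) = sh k E (b y)) (hc : ∀ y, c (sh k E y) = sh k E' (c y))
    (hd : ∀ y, d (sh k E' y) = sh k E' (d y)) (w : V k (E × E')) :
    blk a b c d (sh k _ w) = sh k _ (blk a b c d w) := by
  rw [blk_apply, show s1 (sh k _ w) = sh k E (s1 w) from rfl,
    show s2 (sh k _ w) = sh k E' (s2 w) from rfl, ha, hb, hc, hd]; rfl

theorem z_eq (y : V k E) : (0 : V k E →L[ℝ] V k E') (sh k E y) = sh k E' ((0 : _ →L[ℝ] _) y) :=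
  (map_zero (sh k E')).symm
theorem one_eq (y : V k E) : (1 : V k E →L[ℝ] V k E) (sh k E y) = sh k E ((1 : _ →L[ℝ] _) y) := rfl

end Cj
open Cj

variable {g g' : B → V k E →L[ℝ] V k E}

theorem Gi.mn (h : Gi g) (b : B) (y : V k E) : mn (g b y) = g b (mn y) := mn_eqv (h.eq b) y
theorem Gi.mn_ne (h : Gi g) (b : B) (y : V k E) : Pm.mn (g b y) ≠ 0 ↔ Pm.mn y ≠ 0 := by
  rw [h.mn]; exact not_congr ⟨h.inj b _, fun e => by rw [e, map_zero]⟩
theorem Gi.one : Gi fun _ : B => (1 : V k E →L[ℝ] V k E) :=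
  ⟨continuous_const, fun _ _ => rfl, fun _ _ e => e⟩
theorem Gi.mul (h : Gi g) (h' : Gi g') : Gi fun b => g b * g' b :=
  ⟨h.ct.mul h'.ct, fun b y => (congrArg (g b) (h'.eq b y)).trans (h.eq b _),
    fun b y e => h'.inj b y (h.inj b _ e)⟩
theorem Gi.comp (h : Gi g) {φ : B' → B} (hφ : Continuous φ) : Gi fun b => g (φ b) :=
  ⟨h.ct.comp hφ, fun _ => h.eq _, fun _ => h.inj _⟩
theorem Gi.ap (h : Gi g) : Continuous fun x : B × V k E => (x.1, g x.1 x.2) :=
  continuous_fst.prodMk ((h.ct.comp continuous_fst).clm_apply continuous_snd)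


theorem PM.Ec_cf (h : Gi g) (A : PM B k E) :
    (A.cf g g').Ec = A.Ec.cf (fun b => g b.1) fun b => g' b.1 :=
  pb_ext (Set.ext fun x => and_congr (h.mn_ne _ _).symm Iff.rfl)
    (funext fun x => by simp [PM.cf, PM.Ec, Pb.cf, h.mn])

theorem PM.NoZ.cf {A : PM B k E} {δ δ' : ℝ} {b : B} (a : A.NoZ δ b) (h : Gi g) (h' : Gi g')
    (e : ∀ y, ‖mn y‖ ≤ δ' → ‖g b (mn y)‖ ≤ δ) : (A.cf g g').NoZ δ' b := fun y t ht o m z => by
  refine h.inj b _ ((h.mn b y).symm.trans (a (g b y) t ht (o.imp_right fun o => ?_) ?_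
    (h'.inj b _ ?_)))
  · rw [h.mn]; exact e y o
  · simpa [PM.cf, h.mn] using m
  · simpa [PM.cf, h.mn] using z
theorem PM.Cs.cf {A : PM B k E} {δ δ' : ℝ} (a : A.Cs δ) (h : Gi g) (h' : Gi g')
    (e : ∀ b y, ‖mn y‖ ≤ δ' → ‖g b (mn y)‖ ≤ δ) : (A.cf g g').Cs δ' :=
  let ⟨K, c, z⟩ := a; ⟨K, c, fun b m => (z b m).cf h h' (e b)⟩

variable [FiniteDimensional ℝ E]

theorem Gi.unit (h : Gi g) (b : B) : IsUnit (g b) :=
  ContinuousLinearMap.isUnit_iff_bijective.2 ⟨(injective_iff_map_eq_zero _).2 (h.inj b),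
    LinearMap.injective_iff_surjective (f := (g b : V k E →ₗ[ℝ] V k E)) |>.1
      ((injective_iff_map_eq_zero _).2 (h.inj b))⟩
theorem Gi.mul_inv (h : Gi g) (b : B) : g b * Ring.inverse (g b) = 1 :=
  Ring.mul_inverse_cancel _ (h.unit b)
theorem Gi.inv_mul (h : Gi g) (b : B) : Ring.inverse (g b) * g b = 1 :=
  Ring.inverse_mul_cancel _ (h.unit b)
theorem Gi.ap_inv (h : Gi g) (b : B) (y : V k E) : g b (Ring.inverse (g b) y) = y :=
  congrArg (· y) (h.mul_inv b)
theorem Gi.inv_ap (h : Gi g) (b : B) (y : V k E) : Ring.inverse (g b) (g b y) = y :=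
  congrArg (· y) (h.inv_mul b)
/-- the inverse family -/
theorem Gi.inv (h : Gi g) : Gi fun b => Ring.inverse (g b) := by
  have := FiniteDimensional.complete ℝ E
  refine ⟨continuous_iff_continuousAt.2 fun b => ?_, fun b y => ?_, fun b y e => ?_⟩
  · obtain ⟨u, e⟩ := h.unit b
    exact ContinuousAt.comp (e ▸ NormedRing.inverse_continuousAt u) h.ct.continuousAt
  · conv_lhs => rw [← h.ap_inv b y, ← h.eq, h.inv_ap]
  · rw [← h.ap_inv b y, e, map_zero]

theorem Gi.cp (h : Gi g) {S : Set (B × V k E)} (c : IsCompact S) :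
    IsCompact {x : B × V k E | (x.1, g x.1 x.2) ∈ S} := by
  convert c.image h.inv.ap using 1
  ext x
  refine ⟨fun a => ⟨_, a, Prod.ext rfl (h.inv_ap _ _)⟩, ?_⟩
  rintro ⟨z, a, rfl⟩
  simpa [h.ap_inv] using a

/-- lower bounds on compact sets -/
theorem Gi.lo (h : Gi g) {K : Set B} (c : IsCompact K) :
    ∃ C > 0, ∀ b ∈ K, ∀ y, ‖y‖ ≤ C * ‖g b y‖ := by
  obtain ⟨C, e⟩ := c.exists_bound_of_continuousOn h.inv.ct.continuousOn
  refine ⟨max C 1, by positivity, fun b m y => ?_⟩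
  conv_lhs => rw [← h.inv_ap b y]
  exact (ContinuousLinearMap.le_opNorm _ _).trans
    (mul_le_mul_of_nonneg_right ((e b m).trans (le_max_left _ _)) (norm_nonneg _))
/-- upper bounds on compact sets -/
theorem Gi.hi (h : Gi g) {K : Set B} (c : IsCompact K) :
    ∃ C > 0, ∀ b ∈ K, ∀ y, ‖g b y‖ ≤ C * ‖y‖ := by
  obtain ⟨C, e⟩ := c.exists_bound_of_continuousOn h.ct.continuousOn
  exact ⟨max C 1, by positivity, fun b m y => (ContinuousLinearMap.le_opNorm _ _).trans
    (mul_le_mul_of_nonneg_right ((e b m).trans (le_max_left _ _)) (norm_nonneg _))⟩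

theorem Pb.Ok.cf {P : Pb B k E} (a : P.Ok) (h : Gi g) (h' : Gi g') : (P.cf g g').Ok := by
  refine ⟨a.op.preimage h.ap, fun x m => ?_, ?_, fun x m => ?_, ?_,
    fun x m => (h.mn_ne _ _).1 (a.fr _ m)⟩
  · simpa only [Pb.cf, mem_ofPred_eq, h.eq] using a.inv _ m
  · exact (h'.ct.comp continuous_fst).continuousOn.clm_apply
      (a.ct.comp h.ap.continuousOn fun _ m => m)
  · simp only [Pb.cf, h.eq]
    rw [a.eq _ m, h'.eq]
  · convert h.cp a.cp using 1
    ext x
    exact and_congr Iff.rfl ⟨h'.inj _ _, fun e => (congrArg (g' x.1) e).trans (map_zero _)⟩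

theorem PM.Ok.cf {A : PM B k E} (a : A.Ok) (h : Gi g) (h' : Gi g') : (A.cf g g').Ok := by
  refine ⟨a.op.preimage h.ap, fun x m => ?_, ?_, fun x m => ?_, fun K c R => ?_,
    (h'.ct.mul a.nc).mul h.ct, fun b y => ?_, fun b y e => ?_⟩
  · simpa only [PM.cf, mem_ofPred_eq, h.eq] using a.inv _ m
  · exact (h'.ct.comp continuous_fst).continuousOn.clm_apply
      (a.ct.comp h.ap.continuousOn fun _ m => m)
  · simp only [PM.cf, h.eq]
    rw [a.eq _ m, h'.eq]
  · obtain ⟨C, C0, e⟩ := h'.lo c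
    convert h.cp (cp_sep (a.pp K c (C * R)) (f := fun x => ‖g' x.1 (A.P x)‖)
      ((h'.ct.comp continuous_fst).continuousOn.clm_apply (a.ct.mono fun _ m => m.1)).norm
      (isClosed_Iic (a := R))) using 1
    ext x
    exact ⟨fun m => ⟨⟨m.1, m.2.1, (e _ m.2.1 _).trans (mul_le_mul_of_nonneg_left m.2.2 C0.le)⟩,
      m.2.2⟩, fun m => ⟨m.1.1, m.1.2.1, m.2⟩⟩
  · simp only [PM.cf, mul_apply_eq_comp, h.eq, a.ne, h'.eq]
  · have : A.n b (g b (mn y)) = 0 := h'.inj b _ e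
    rw [← h.mn] at this
    exact h.inj b _ ((h.mn b y).symm.trans (a.ni b _ this))

theorem PM.Adm.cf {A : PM B k E} (a : A.Adm) (h : Gi g) (h' : Gi g') : (A.cf g g').Adm :=
  ⟨PM.Ec_cf h A ▸ a.1.cf (h.comp continuous_fst) (h'.comp continuous_fst), fun _ m e =>
    h.inj _ _ ((h.mn _ _).symm.trans (a.2 _ m (h'.inj _ _ e)))⟩

theorem PM.Bd.cf {A : PM B k E} (a : A.Bd) (h : Gi g) (h' : Gi g') {C : ℝ} (C0 : 0 ≤ C)
    (e : ∀ b y, ‖y‖ ≤ C * ‖g b y‖) : (A.cf g g').Bd := by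
  obtain ⟨R, a⟩ := a
  refine ⟨C * R, fun x m s s0 z => ?_⟩
  have := a _ m s s0 (h'.inj x.1 _ (by simpa [PM.cf, h.mn] using z))
  rw [h.mn] at this
  calc _ ≤ (1 + s) * (C * ‖g x.1 (mn x.2)‖) := by gcongr; exact e _ _
    _ = C * ((1 + s) * ‖g x.1 (mn x.2)‖) := by ring
    _ ≤ _ := by gcongr

theorem Tau.cf {δ δ' : ℝ} {τ : B × V k E → ℝ} (a : Tau δ τ) (h : Gi g)
    (e : ∀ b y, δ' ≤ ‖mn y‖ → δ ≤ ‖g b (mn y)‖) : Tau δ' fun x => τ (x.1, g x.1 x.2) := by
  refine ⟨a.ct.comp h.ap, fun x => ?_, fun x => a.mem _, fun K c => ?_,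
    fun x m => a.o _ (by rw [h.mn]; exact e _ _ m)⟩
  · simp only [h.eq]; exact a.inv (x.1, g x.1 x.2)
  · obtain ⟨d, d0, z⟩ := a.z K c
    obtain ⟨C, C0, u⟩ := h.hi c
    refine ⟨d / C, by positivity, fun x m l => z _ m ?_⟩
    rw [h.mn]
    exact (u _ m _).trans_lt ((lt_div_iff₀' C0).1 l)

/-- homotopic frames give homotopic problems -/
theorem Pb.Ok.ht_cf {P : Pb B k E} (a : P.Ok) {G G' : B × I → V k E →L[ℝ] V k E} (h : Gi G)
    (h' : Gi G') : Pb.Ht (P.cf (fun b => G (b, 0)) fun b => G' (b, 0))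
      (P.cf (fun b => G (b, 1)) fun b => G' (b, 1)) :=
  ⟨_, (pull_fst a).cf h h', ⟨rfl, fun _ _ => rfl⟩, rfl, fun _ _ => rfl⟩

theorem Pb.Ok.eqv_cf {P : Pb B k E} (a : P.Ok) {G G' : B × I → V k E →L[ℝ] V k E} (h : Gi G)
    (h' : Gi G') (e0 : ∀ b, G (b, 0) = 1) (e0' : ∀ b, G' (b, 0) = 1) (e1 : ∀ b, G (b, 1) = g b)
    (e1' : ∀ b, G' (b, 1) = g' b) : Pb.Eqv P (P.cf g g') := by
  have := a.ht_cf h h'
  simp only [e0, e0', e1, e1'] at this
  exact .rel _ _ (.inl this)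

namespace Cj
variable [FiniteDimensional ℝ E']

theorem gl_u {a : B → V k E' →L[ℝ] V k E} (c : Continuous a)
    (e : ∀ b y, a b (sh k E' y) = sh k E (a b y)) :
    Gi (E := E × E') fun b => blk 1 (a b) 0 1 :=
  ⟨blk_ct continuous_const c continuous_const continuous_const,
    fun b => blk_eq one_eq (e b) z_eq one_eq, fun b w z => by
      have z2 : s2 w = 0 := by simpa [blk_apply, s2_pr, s2_z] using congrArg s2 z
      have z1 : s1 w = 0 := by simpa [blk_apply, s1_pr, s1_z, z2] using congrArg s1 z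
      rw [← pr_s w, z1, z2, pr_zero]⟩
theorem gl_l {a : B → V k E →L[ℝ] V k E'} (c : Continuous a)
    (e : ∀ b y, a b (sh k E y) = sh k E' (a b y)) :
    Gi (E := E × E') fun b => blk 1 0 (a b) 1 :=
  ⟨blk_ct continuous_const continuous_const c continuous_const,
    fun b => blk_eq one_eq z_eq (e b) one_eq, fun b w z => by
      have z1 : s1 w = 0 := by simpa [blk_apply, s1_pr, s1_z] using congrArg s1 z
      have z2 : s2 w = 0 := by simpa [blk_apply, s2_pr, s2_z, z1] using congrArg s2 z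
      rw [← pr_s w, z1, z2, pr_zero]⟩






end Cj

section th
variable {X : Type} [TopologicalSpace X] {A : Type} [AddCommGroup A] (T : Th X A) {S : Sp}




end th

end Crest.Agent.N218.Pm

end
namespace Crest.Agent.N218.Pm.Th
end Crest.Agent.N218.Pm.Th
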