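import Crest.Agent.N218.Pm.Sq1
import Crest.Agent.N218.Fo.L2_Mg

-- ▼ part N218/Pm/Sq
section

/-!
# Row 218, block ALG (helper45): the square and the assembly
-/

set_option autoImplicit false
set_option linter.unusedVariables false
set_option linter.unusedSectionVars false

open Set Topology unitInterval

noncomputable section

namespace Crest.Agent.N218.Pm.Sq

section gen
variable {B B' B'' : Type} [TopologicalSpace B] [TopologicalSpace B'] [TopologicalSpace B''] {k : ℕ}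
  {E : Type} [NormedAddCommGroup E] [NormedSpace ℝ E]

theorem At.of_eq (A : PM B k E) {b b' : B} (h : b = b') : At A b A b' := h ▸ At.rfl' A b
theorem At.tr {A : PM B k E} {b : B} {A' : PM B' k E} {b' : B'} {A'' : PM B'' k E} {b'' : B''}
    (h : At A b A' b') (h' : At A' b' A'' b'') : At A b A'' b'' := h.trans h'
theorem at_fm (A : ℝ → PM (B × ℝ) k E) (x : B) (θ s : ℝ) :
    At (PM.fm A) ((x, θ), s) (A θ) (x, s) := fun _ => ⟨Iff.rfl, fun _ => rfl⟩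
theorem at_pull (A : PM B k E) (φ : B' → B) (b : B') : At (A.pull φ) b A (φ b) :=
  fun _ => ⟨Iff.rfl, fun _ => rfl⟩
theorem at_wn (A : PM B k E) (n : B → V k E →L[ℝ] V k E) (b : B) : At (A.wn n) b A b :=
  fun _ => ⟨Iff.rfl, fun _ => rfl⟩
end gen

theorem rep_coe {t : ℝ} (h : t ∈ Ico (0 : ℝ) 1) : rep (t : UnitAddCircle) = t := by
  rw [rep, AddCircle.equivIco_coe_eq (by simpa using h)]

/-- small reparametrisations do not change the problem -/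
theorem rep_eqv {X : Type} [TopologicalSpace X] [CompactSpace X] [T2Space X] {k : ℕ} {E : Type}
    [NormedAddCommGroup E] [NormedSpace ℝ E] [FiniteDimensional ℝ E] {A : PM (X × ℝ) k E}
    (hA : A.Ok) {δ : ℝ} (hδ : 0 < δ) (hz : ∀ x s, s ≤ 0 ∨ 6 ≤ s → A.NoZ δ (x, s)) {ψ : ℝ → ℝ}
    (hψ : Continuous ψ) (h : ∀ s, ψ s ∈ Icc (0 : ℝ) 3) : (A.F (tau δ)).Ok ∧
      (A.F (tau δ)).Eqv ((A.pull fun b : X × ℝ => (b.1, b.2 + ψ b.2)).F (tau δ)) := by
  have ok : (A.F (tau δ)).Ok := PM.fok hA (tau_ok hδ) ⟨univ ×ˢ Icc 0 6,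
    isCompact_univ.prod isCompact_Icc, fun b hb => hz b.1 b.2 (by
      by_contra c
      push Not at c
      exact hb ⟨trivial, c.1.le, c.2.le⟩)⟩
  have := ok.eqv_pull (H := fun p : (X × ℝ) × I => (p.1.1, p.1.2 + p.2 * ψ p.1.2)) (by fun_prop)
    (K := univ ×ˢ Icc (-3) 6) (isCompact_univ.prod isCompact_Icc) fun b s y m => by
      by_contra c
      refine PM.NoZ.notMem (tau_ok hδ) (hz _ _ ?_) m
      have a := h b.2
      have a0 := mul_nonneg s.2.1 a.1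
      have a1 := mul_le_of_le_one_left a.1 s.2.2
      rcases not_and_or.1 (fun d => c ⟨trivial, d⟩ : ¬(-3 ≤ b.2 ∧ b.2 ≤ 6)) with d | d
      · exact .inl (by linarith [not_le.1 d, a.2])
      · exact .inr (by linarith [not_le.1 d])
  simp only [Icc.coe_zero, zero_mul, add_zero, Icc.coe_one, one_mul] at this
  exact ⟨ok, this⟩

variable {X E₁ E₂ : Type} [TopologicalSpace X] [NormedAddCommGroup E₁] [InnerProductSpace ℂ E₁]
  [NormedAddCommGroup E₂] [InnerProductSpace ℂ E₂] (D : Data X E₁ E₂) {c κ R₀ M : ℝ} (k : ℕ)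

/-- left half -/
def Lf : PM ((X × ℝ) × ℝ) k (E₁ × E₂) :=
  PM.glue 1 (PM.fm fun θ => D.a₁ k (Tg k E₁ θ)) (PM.fm fun θ => D.a₂ k (Tg k E₁ θ))
/-- right half -/
def Rt : PM ((X × ℝ) × ℝ) k (E₁ × E₂) :=
  PM.glue 5 (PM.fm fun θ => D.a₃ k (Tg k E₂ θ)) (PM.fm fun θ => D.a₄ k (Tg k E₂ θ))
/-- the inserted arc -/
def Md : PM ((X × ℝ) × ℝ) k (E₁ × E₂) :=
  (D.K k).pull fun b => (b.1.1, b.1.2 + cl b.2 * (1 - b.1.2), -(cl b.2 * (1 - b.1.2)))
/-- the square -/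
def W : PM ((X × ℝ) × ℝ) k (E₁ × E₂) :=
  (PM.glue 0 ((Lf D k).pull fun b => (b.1, b.2 + 3))
    (PM.glue 1 (Md D k) ((Rt D k).pull fun b => (b.1, b.2 + 2)))).wn fun b =>
    D.nu k b.1.1 (Real.pi * (1 - b.1.2) * (1 - cl (b.2 + 1))) (Real.pi * (1 - b.1.2) * cl (b.2 + 1))

variable {D k}

section at'
variable (x : X) (θ : ℝ) {s : ℝ} (T₁ : V k E₁ →L[ℝ] V k E₁) (T₂ : V k E₂ →L[ℝ] V k E₂)

theorem lf1 (h : s ≤ 1) : At (Lf D k) ((x, θ), s) (D.a₁ k (Tg k E₁ θ)) (x, s) :=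
  (at_le _ _ h).tr (at_fm _ x θ s)
theorem lf2 (h : 1 < s) : At (Lf D k) ((x, θ), s) (D.a₂ k (Tg k E₁ θ)) (x, s) :=
  (at_gt _ _ h).tr (at_fm _ x θ s)
theorem rt3 (h : s ≤ 5) : At (Rt D k) ((x, θ), s) (D.a₃ k (Tg k E₂ θ)) (x, s) :=
  (at_le _ _ h).tr (at_fm _ x θ s)
theorem rt4 (h : 5 < s) : At (Rt D k) ((x, θ), s) (D.a₄ k (Tg k E₂ θ)) (x, s) :=
  (at_gt _ _ h).tr (at_fm _ x θ s)
theorem p1 (h : s ≤ 1) : At (D.path k T₁ T₂) (x, s) (D.a₁ k T₁) (x, s) := at_le _ _ h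
theorem p2 (h : 1 < s) (h' : s ≤ 3) : At (D.path k T₁ T₂) (x, s) (D.a₂ k T₁) (x, s) :=
  (at_gt _ _ h).tr (at_le _ _ h')
theorem p3 (h : 3 < s) (h' : s ≤ 5) : At (D.path k T₁ T₂) (x, s) (D.a₃ k T₂) (x, s) :=
  (at_gt _ _ (show 1 < s by linarith)).tr ((at_gt _ _ h).tr (at_le _ _ h'))
theorem p4 (h : 5 < s) : At (D.path k T₁ T₂) (x, s) (D.a₄ k T₂) (x, s) :=
  (at_gt _ _ (show 1 < s by linarith)).tr ((at_gt _ _ (show 3 < s by linarith)).tr (at_gt _ _ h))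
theorem md (s : ℝ) :
    At (Md D k) ((x, θ), s) (D.K k) (x, θ + cl s * (1 - θ), -(cl s * (1 - θ))) := at_pull _ _ _

theorem lf_path (h : s ≤ 3) : At (Lf D k) ((x, θ), s) (D.path k (Tg k E₁ θ) T₂) (x, s) :=
  (le_or_gt s 1).elim (fun l => (lf1 x θ l).tr (p1 x _ _ l).symm)
    fun l => (lf2 x θ l).tr (p2 x _ _ l h).symm

theorem rt_path (h : 3 < s) : At (Rt D k) ((x, θ), s) (D.path k T₁ (Tg k E₂ θ)) (x, s) :=
  (le_or_gt s 5).elim (fun l => (rt3 x θ l).tr (p3 x _ _ h l).symm)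
    fun l => (rt4 x θ l).tr (p4 x _ _ l).symm

theorem path_n (b : X × ℝ) : (D.path k T₁ T₂).n b = 1 := by
  simp only [Data.path, PM.glue]; split_ifs <;> rfl

theorem lf_K : At (Lf D k) ((x, θ), 0 + 3) (Md D k) ((x, θ), 0) :=
  (lf2 x θ (by norm_num)).tr ((seam2 θ x (by norm_num)).tr
    ((At.of_eq (D.K k) (by simp [cl_le])).tr (md x θ 0).symm))

theorem rt_K : At (Md D k) ((x, θ), 1) (Rt D k) ((x, θ), 1 + 2) :=
  (md x θ 1).tr ((At.of_eq (D.K k) (by simp [cl_ge])).tr ((seam5 x 0 (θ - 1)).tr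
    ((At.of_eq (D.K k) (by simp)).tr ((seam3 θ x (s := 1 + 2) (by norm_num)).symm.tr
      (rt3 x θ (by norm_num)).symm))))

theorem w_le (h : s ≤ 0) : At (W D k) ((x, θ), s) (Lf D k) ((x, θ), s + 3) :=
  (at_wn _ _ _).tr ((at_le _ _ h).tr (at_pull _ _ _))

theorem w_gt (h : 1 < s) : At (W D k) ((x, θ), s) (Rt D k) ((x, θ), s + 2) :=
  (at_wn _ _ _).tr ((at_gt _ _ (zero_lt_one.trans h)).tr ((at_gt _ _ h).tr (at_pull _ _ _)))

theorem w_mid (h : s ∈ Icc (0 : ℝ) 1) :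
    At (W D k) ((x, θ), s) (D.K k) (x, θ + s * (1 - θ), -(s * (1 - θ))) := by
  refine At.tr ?_ ((md x θ s).tr (At.of_eq (D.K k) (by rw [cl_mid h])))
  rcases h.1.eq_or_lt with rfl | l
  · exact (w_le x θ le_rfl).tr (lf_K x θ)
  · exact (at_wn _ _ _).tr ((at_gt _ _ l).tr (at_le _ _ h.2))
end at'

variable [CompactSpace X] [T2Space X] [FiniteDimensional ℂ E₁] [FiniteDimensional ℂ E₂]

theorem w_ok (arc : ARC) (hD : D.Ok c κ R₀ M) : (W D k).Ok := by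
  obtain ⟨a1, a2, a3, a4, aK⟩ := arc X E₁ E₂ D c κ R₀ M k hD
  have l : (Lf D k).Ok := glue_ok a1 a2 (fun b => (at_fm _ b.1 b.2 1).tr
    ((seam1 hD _ b.1).tr (at_fm (fun θ => D.a₂ k (Tg k E₁ θ)) b.1 b.2 1).symm)) fun _ => rfl
  have r : (Rt D k).Ok := glue_ok a3 a4 (fun b => (at_fm _ b.1 b.2 5).tr
    ((seam4 hD _ b.1).tr (at_fm (fun θ => D.a₄ k (Tg k E₂ θ)) b.1 b.2 5).symm)) fun _ => rfl
  have ln : ∀ b, (Lf D k).n b = 1 := fun b => by simp only [Lf, PM.glue]; split_ifs <;> rfl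
  have rn : ∀ b, (Rt D k).n b = 1 := fun b => by simp only [Rt, PM.glue]; split_ifs <;> rfl
  have m : (Md D k).Ok := aK.pull (by fun_prop)
  refine wn_ok (glue_ok (l.pull (by fun_prop)) (glue_ok m
    (r.pull (by fun_prop)) (fun b => (rt_K b.1 b.2).tr (at_pull _ _ _).symm) fun b => (rn _).symm)
    (fun b => (at_pull _ _ _).tr ((lf_K b.1 b.2).tr (at_le _ _ (b := (b, 0)) zero_le_one).symm))
    fun b => ?_)
    (nu_cont hD (by fun_prop) (by fun_prop) (by fun_prop)) (fun _ _ => rfl) fun b => nu_inj hD _ _ _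
  exact (ln _).trans (if_pos (zero_le_one' ℝ)).symm

theorem path_ok (arc : ARC) (hD : D.Ok c κ R₀ M) {θ : ℝ} (h : θ = 0 ∨ θ = 1) :
    (D.path k (Tg k E₁ θ) (Tg k E₂ θ)).Ok := by
  obtain ⟨a1, a2, a3, a4, -⟩ := arc X E₁ E₂ D c κ R₀ M k hD
  have p : Continuous fun b : X × ℝ => ((b.1, θ), b.2) := by fun_prop
  have b1 : (D.a₁ k (Tg k E₁ θ)).Ok := a1.pull p
  have b2 : (D.a₂ k (Tg k E₁ θ)).Ok := a2.pull p
  have b3 : (D.a₃ k (Tg k E₂ θ)).Ok := a3.pull p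
  have b4 : (D.a₄ k (Tg k E₂ θ)).Ok := a4.pull p
  refine glue_ok b1 (glue_ok b2 (glue_ok b3 b4
    (fun x => seam4 hD _ x) fun _ => rfl) (fun x => ?_) fun x => (if_pos (by norm_num)).symm)
    (fun x => (seam1 hD _ x).tr (at_le _ _ (b := (x, 1)) (by norm_num)).symm)
    fun x => (if_pos (by norm_num)).symm
  refine (seam2 θ x le_rfl).tr (At.tr ?_
    ((seam3 θ x le_rfl).symm.tr (at_le _ _ (b := (x, 3)) (by norm_num)).symm))
  rcases h with rfl | rfl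
  · exact At.rfl' _ _
  · simpa using seam5 (D := D) (k := k) x 0 0

theorem y_eq : D.Y k = D.path k (Tg k E₁ 1) (Tg k E₂ 1) := by rw [Tg_one, Tg_one]; rfl

theorem y_noZ (hD : D.Ok c κ R₀ M) (x : X) (s δ : ℝ) (h : s ≤ 0 ∨ 6 ≤ s) : (D.Y k).NoZ δ (x, s) := by
  rw [y_eq]
  rcases h with h | h
  · exact ((p1 x _ _ (by linarith)).tr (at_wn _ _ _).symm).noZ (by simp [path_n, PM.wn, nu_zero])
      (noZ_L hD (θ := 1) (by simp) x h δ)
  · exact ((p4 x _ _ (by linarith)).tr (at_wn _ _ _).symm).noZ (by simp [path_n, PM.wn, nu_zero])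
      (noZ_R hD (θ := 1) (by simp) x h δ)

theorem g_ok (arc : ARC) (hD : D.Ok c κ R₀ M) (k : ℕ) :
    (D.G k).Ok ∧ ∀ x s δ, s ≤ 0 ∨ 6 ≤ s → (D.G k).NoZ δ (x, s) := by
  have p := path_ok (k := k) arc hD (.inl rfl)
  rw [Tg_zero, Tg_zero] at p
  refine ⟨wn_ok p (nu_cont hD (by fun_prop) (by fun_prop) (by fun_prop)) (fun _ _ => rfl)
    fun b => nu_inj hD _ _ _, fun x s δ h => ?_⟩
  rcases h with h | h
  · have := noZ_L (k := k) hD (θ := 0) (by simp) x h δ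
    rw [Tg_zero] at this
    exact ((at_wn _ _ _).tr ((p1 x _ _ (by linarith)).tr (at_wn _ _ _).symm)).noZ
      (by simp [PM.wn, cl_le (t := s - 2) (by linarith)]) this
  · have := noZ_R (k := k) hD (θ := 0) (by simp) x h δ
    rw [Tg_zero] at this
    exact ((at_wn _ _ _).tr ((p4 x _ _ (by linarith)).tr (at_wn _ _ _).symm)).noZ
      (by simp [PM.wn, cl_ge (t := s - 2) (by linarith)]) this

theorem w_noZ (hD : D.Ok c κ R₀ M) (x : X) {θ : ℝ} (hθ : θ ∈ Icc (0 : ℝ) 1) (s δ : ℝ)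
    (h : s < -3 ∨ 4 < s) : (W D k).NoZ δ ((x, θ), s) := by
  rcases h with h | h
  · exact ((w_le x θ (by linarith)).tr ((lf1 x θ (by linarith)).tr (at_wn _ _ _).symm)).noZ
      (by simp [W, PM.wn, cl_le (t := s + 1) (by linarith)])
      (noZ_L hD hθ x (s := s + 3) (by linarith) δ)
  · exact ((w_gt x θ (by linarith)).tr ((rt4 x θ (by linarith)).tr (at_wn _ _ _).symm)).noZ
      (by simp [W, PM.wn, cl_ge (t := s + 1) (by linarith)])
      (noZ_R hD hθ x (s := s + 2) (by linarith) δ)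

theorem w_one (b : X × ℝ) : At ((W D k).pull fun b : X × ℝ => ((b.1, 1), b.2)) b
    ((D.Y k).pull fun b : X × ℝ => (b.1, b.2 + (3 - cl b.2))) b := by
  obtain ⟨x, s⟩ := b
  rw [y_eq]
  refine (at_pull _ _ _).tr (At.tr ?_ (at_pull _ _ _).symm)
  rcases le_or_gt s 0 with l | l
  · exact (w_le x 1 l).tr ((lf_path x 1 _ (by linarith)).tr (At.of_eq _ (by simp [cl_le l])))
  rcases le_or_gt s 1 with l' | l'
  · exact (w_mid x 1 ⟨l.le, l'⟩).tr ((At.of_eq _ (by simp)).tr ((seam2 1 x le_rfl).symm.tr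
      ((p2 x _ _ (by norm_num) le_rfl).symm.tr (At.of_eq _ (by simp [cl_mid ⟨l.le, l'⟩])))))
  · exact (w_gt x 1 l').tr ((rt_path x 1 _ (by linarith)).tr
      (At.of_eq _ (by simp [cl_ge l'.le]; ring)))

theorem w_cut (b : X × ℝ) :
    At ((W D k).pull fun b : X × ℝ => ((b.1, 0), if b.2 ≤ 0 then b.2 else b.2 + 1)) b
      ((D.G k).pull fun b : X × ℝ => (b.1, b.2 + 3)) b ∧
    (W D k).n ((b.1, 0), if b.2 ≤ 0 then b.2 else b.2 + 1) = (D.G k).n (b.1, b.2 + 3) := by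
  obtain ⟨x, s⟩ := b
  refine ⟨(at_pull _ _ _).tr (At.tr ?_ ((at_pull _ _ _).tr (at_wn _ _ _)).symm), ?_⟩
  · rw [← Tg_zero, ← Tg_zero]
    rcases le_or_gt s 0 with l | l
    · exact (At.of_eq (W D k) (by simp [l])).tr ((w_le x 0 l).tr (lf_path x 0 _ (by linarith)))
    · exact (At.of_eq (W D k) (by simp [not_le.2 l])).tr ((w_gt x 0 (s := s + 1) (by linarith)).tr
        ((rt_path x 0 _ (by linarith)).tr (At.of_eq _ (by simp; ring))))
  · rcases le_or_gt s 0 with l | l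
    · simp [W, Data.G, PM.wn, l, show s + 3 - 2 = s + 1 by ring]
    · simp [W, Data.G, PM.wn, not_le.2 l, cl_ge (t := s + 3 - 2) (by linarith),
        cl_ge (t := s + 1 + 1) (by linarith)]

theorem w_lp (δ : ℝ) : (((W D k).pull fun b : X × ℝ => ((b.1, 0), b.2)).F (tau δ)).Lp
    ((D.Lo k).F (tau δ)) := fun x t y ht => by
  refine At.F (A := (W D k).pull fun b : X × ℝ => ((b.1, 0), b.2)) (b := (x, t)) (A' := D.Lo k)
    ((at_pull _ _ _).tr ((w_mid x 0 ht).tr (At.tr ?_ ((at_wn _ _ _).tr (at_pull _ _ _)).symm)))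
    ?_ δ y
  · rcases ht.2.eq_or_lt with rfl | l
    · have e : rep ((1 : ℝ) : UnitAddCircle) = 0 := by
        rw [AddCircle.coe_period]; exact rep_coe (t := 0) (by simp)
      exact (At.of_eq (D.K k) (by simp)).tr ((seam5 x 0 (-1)).tr (At.of_eq (D.K k) (by simp [e])))
    · exact At.of_eq (D.K k) (by simp [rep_coe ⟨ht.1, l⟩])
  · simp [W, Data.Lo, PM.wn, PM.pull, cl_ge (t := t + 1) (by linarith [ht.1])]

end Sq

open Sq in
/-- **ALG** from its leaves -/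
theorem alg_of (arc : ARC) (d5 : D5) (lp : LOOP) : ALG := by
  intro X _ _ _ A _ T E₁ E₂ _ _ _ _ _ _ D c κ R₀ M k δ hD hk hδ
  have k16 : 16 ≤ k := by omega
  obtain ⟨lo, ob, e0⟩ := lp X A T E₁ E₂ D c κ R₀ M k δ hD k16 hδ
  have yo : (D.Y k).Ok := y_eq (D := D) (k := k) ▸ path_ok arc hD (.inr rfl)
  obtain ⟨yf, e1⟩ := rep_eqv yo hδ (fun x s => y_noZ hD x s δ) (ψ := fun s => 3 - cl s)
    (by fun_prop) fun s => ⟨by linarith [(cl_mem s).2], by linarith [(cl_mem s).1]⟩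
  obtain ⟨gf, e2⟩ := rep_eqv (g_ok arc hD k).1 hδ (fun x s => (g_ok arc hD k).2 x s δ)
    (ψ := fun _ => 3) continuous_const fun s => by norm_num
  have e3 := PM.eqv_R ((w_ok (k := k) arc hD).pull
    (φ := fun b : (X × ℝ) × ℝ => ((b.1.1, b.2), b.1.2)) (by fun_prop)) hδ
    (K := univ ×ˢ Icc (-3) 4) (isCompact_univ.prod isCompact_Icc) fun b hb u hu =>
      w_noZ hD b.1 hu b.2 δ (by
        by_contra c
        push Not at c
        exact hb ⟨trivial, c⟩)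
  have e4 := e1.trans ((e1.ok.1 yf).eqv_sm (sm_F (fun b => ⟨w_one b, by
    simp [W, PM.wn, PM.pull, Data.Y, path_n, nu_zero]⟩) δ).symm)
  have e5 := e4.trans e3.symm
  have e6 := e2.trans ((e2.ok.1 gf).eqv_sm (sm_F w_cut δ).symm)
  have p := T.pants k (sp (E₁ × E₂)) _ _ k16 (e5.ok.1 yf) (e6.ok.1 gf) lo (w_lp δ)
  rw [← T.pa_eqv k (sp (E₁ × E₂)) _ _ k16 e5, e0] at p
  have z := (T.pa_eqv k (sp (E₁ × E₂)) _ _ k16 e6).symm.trans
    (d5 X A T E₁ E₂ D c κ R₀ M k δ hD hk hδ (g_ok arc hD))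
  refine ⟨yf, ob, ?_⟩
  convert p using 1
  exact (sub_eq_self.2 z).symm

end Crest.Agent.N218.Pm

end
end

-- ▼ part N218/Pm/Arc

/-! # Row 218, block ALG (helper54): the arcs are proper families -/

set_option autoImplicit false
set_option linter.unusedVariables false
set_option linter.unusedSectionVars false

open Set Topology

noncomputable section

namespace Crest.Agent.N218.Pm

namespace Ar
open Fo (n2)

section gen
variable {k : ℕ} {E F : Type} [NormedAddCommGroup E] [NormedAddCommGroup F]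

theorem ok_of [NormedSpace ℝ E] [ProperSpace E] {B Dm : Type} [TopologicalSpace B] [T2Space B]
    [TopologicalSpace Dm] [T2Space Dm] {A : PM B k E} (a : B × V k E → Ix k → Dm)
    (ca : ∀ i, Continuous fun x => a x i) {O : Set Dm} (op : IsOpen O)
    (hO : ∀ x, x ∈ A.O ↔ ∀ i, a x i ∈ O) (ha : ∀ x i, a (x.1, sh k E x.2) i = a x (i - 1))
    (ct : ContinuousOn A.P A.O) (eq : ∀ x, A.P (x.1, sh k E x.2) = sh k E (A.P x))
    (hn : ∀ b, A.n b = 1)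
    (bd : ∀ K, IsCompact K → ∀ R : ℝ, ∃ (R' : ℝ) (C : Set Dm), IsCompact C ∧ C ⊆ O ∧
      ∀ x ∈ A.O, x.1 ∈ K → ‖A.P x‖ ≤ R → ‖x.2‖ ≤ R' ∧ ∀ i, a x i ∈ C) : A.Ok where
  op := by
    rw [show A.O = ⋂ i, (fun x => a x i) ⁻¹' O from Set.ext fun x => by simp [hO]]
    exact isOpen_iInter_of_finite fun i => op.preimage (ca i)
  inv x m := (hO _).2 fun i => ha x i ▸ (hO x).1 m _
  ct := ct
  eq x _ := eq x
  pp K hK R := by
    obtain ⟨R', C, hC, s, b⟩ := bd K hK R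
    have k1 : IsCompact (K ×ˢ Metric.closedBall (0 : V k E) R' ∩ ⋂ i, (fun x => a x i) ⁻¹' C) :=
      (hK.prod (isCompact_closedBall _ _)).inter_right
        (isClosed_iInter fun i => hC.isClosed.preimage (ca i))
    have s1 : K ×ˢ Metric.closedBall (0 : V k E) R' ∩ ⋂ i, (fun x => a x i) ⁻¹' C ⊆ A.O :=
      fun x m => (hO x).2 fun i => s (mem_iInter.1 m.2 i)
    have k2 := k1.of_isClosed_subset ((ct.mono s1).norm.preimage_isClosed_of_isClosed k1.isClosed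
      (isClosed_Iic (a := R))) inter_subset_left
    convert k2 using 1
    ext x
    exact ⟨fun m => ⟨⟨⟨m.2.1, mem_closedBall_zero_iff.2 (b x m.1 m.2.1 m.2.2).1⟩,
      mem_iInter.2 (b x m.1 m.2.1 m.2.2).2⟩, m.2.2⟩, fun m => ⟨s1 m.1, m.1.1.1, m.2⟩⟩
  nc := by rw [show A.n = fun _ => 1 from funext hn]; exact continuous_const
  ne b y := by rw [hn]; rfl
  ni b y := by rw [hn]; exact id

theorem pr_le {y : V k E} {z : V k F} {R : ℝ} (h : ‖pr y z‖ ≤ R) (i : Ix k) :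
    ‖y i‖ ≤ R ∧ ‖z i‖ ≤ R :=
  ⟨(norm_fst_le (pr y z i)).trans ((norm_le_pi_norm _ i).trans h),
    (norm_snd_le (pr y z i)).trans ((norm_le_pi_norm _ i).trans h)⟩

theorem le_n2 (w : V k (E × F)) : ‖w‖ ≤ n2 (s1 w) + n2 (s2 w) :=
  (pi_norm_le_iff_of_nonneg (add_nonneg (Fo.n2_nonneg _) (Fo.n2_nonneg _))).2 fun i =>
    max_le ((Fo.le_n2 (s1 w) i).trans (le_add_of_nonneg_right (Fo.n2_nonneg _)))
      ((Fo.le_n2 (s2 w) i).trans (le_add_of_nonneg_left (Fo.n2_nonneg _)))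

@[fun_prop] theorem cont_s1 {T : Type} [TopologicalSpace T] {w : T → V k (E × F)}
    (h : Continuous w) : Continuous fun t => s1 (w t) := by unfold s1; fun_prop
@[fun_prop] theorem cont_s2 {T : Type} [TopologicalSpace T] {w : T → V k (E × F)}
    (h : Continuous w) : Continuous fun t => s2 (w t) := by unfold s2; fun_prop
theorem cont_pr {T : Type} [TopologicalSpace T] {S : Set T} {y : T → V k E} {z : T → V k F}
    (h : ∀ i, ContinuousOn (fun t => y t i) S) (h' : ContinuousOn z S) :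
    ContinuousOn (fun t => pr (y t) (z t)) S :=
  continuousOn_pi.2 fun i => (h i).prodMk (continuousOn_pi.1 h' i)
@[fun_prop] theorem cont_cl : Continuous cl := by unfold cl; fun_prop
theorem cl_mem (t : ℝ) : 0 ≤ cl t ∧ cl t ≤ 1 :=
  ⟨le_max_left _ _, max_le zero_le_one (min_le_left _ _)⟩
theorem cl_mul {s t : ℝ} (h : s = t + 1) : cl s * cl t = cl t := by
  rcases le_total t 0 with e | e
  · rw [show cl t = 0 from max_eq_left ((min_le_right _ _).trans e), mul_zero]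
  · rw [show cl s = 1 from by
      rw [cl, min_eq_left (by linarith), max_eq_right zero_le_one], one_mul]
theorem smul_le [NormedSpace ℝ E] {a : ℝ} (h : 0 ≤ a ∧ a ≤ 1) (y : E) : ‖a • y‖ ≤ ‖y‖ := by
  rw [norm_smul, Real.norm_of_nonneg h.1]; exact mul_le_of_le_one_left (norm_nonneg _) h.2
end gen

section tg
variable {k : ℕ} {E F : Type} [NormedAddCommGroup E] [InnerProductSpace ℂ E]
  [NormedAddCommGroup F] [InnerProductSpace ℂ F]

theorem Tg_sh (θ : ℝ) (y : V k E) : Tg k E θ (sh k E y) = sh k E (Tg k E θ y) := by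
  have e : ∀ y : V k E, sh k E y = Fo.sh (-1) y := fun y => funext fun i =>
    congrArg y (sub_eq_add_neg i 1)
  rw [e, e]; exact Fo.g_sh _ _ _
theorem Tg_N (θ : ℝ) (A : E →L[ℂ] F) (y : V k E) :
    Tg k F θ (fun i => A (y i)) = fun i => A (Tg k E θ y i) := Fo.mu_N _ A y
theorem n2_Tg (θ : ℝ) (y : V k E) : n2 (Tg k E θ y) = n2 y := Fo.n2_g _ y
theorem n2_N (θ : ℝ) (A : E →L[ℂ] F) (y : V k E) :
    n2 (fun i => A (Tg k E θ y i)) = n2 fun i => A (y i) := by rw [← Tg_N, n2_Tg]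
@[fun_prop] theorem cont_Tg {T : Type} [TopologicalSpace T] {r : T → ℝ} {y : T → V k E}
    (hr : Continuous r) (hy : Continuous y) : Continuous fun t => Tg k E (r t) (y t) :=
  Fo.cont_g hr.neg hy
attribute [local irreducible] Tg

theorem cont_Tg' {T : Type} [TopologicalSpace T] {S : Set T} {r : T → ℝ} {y : T → V k E}
    (hr : Continuous r) (hy : ∀ i, ContinuousOn (fun t => y t i) S) :
    ContinuousOn (fun t => Tg k E (r t) (y t)) S :=
  (cont_Tg (T := ℝ × V k E) continuous_fst continuous_snd).comp_continuousOn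
    (hr.continuousOn.prodMk (continuousOn_pi.2 hy))

variable {X : Type} [TopologicalSpace X] {π : X → E →L[ℂ] E}

theorem pr_norm (h : IsPr π) (x : X) (y : E) : ‖π x y‖ ≤ ‖y‖ := by
  have e : ‖π x y‖ ^ 2 ≤ ‖y‖ * ‖π x y‖ := by
    rw [← inner_self_eq_norm_sq (𝕜 := ℂ), h.sa, h.id]
    exact re_inner_le_norm _ _
  nlinarith [norm_nonneg y, norm_nonneg (π x y)]

/-- the second slot -/
theorem zbd (h : IsPr π) (x : X) (θ : ℝ) {z v : V k E} {R : ℝ} (hv : ∀ i, π x (v i) = v i)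
    (e : ∀ i, ‖(z - Tg k E θ v) i‖ ≤ R) :
    n2 v ≤ n2 (fun i => π x (z i)) + (2 ^ (k + 1) : ℕ) * R ∧
      n2 z ≤ n2 v + (2 ^ (k + 1) : ℕ) * R := by
  have R0 : 0 ≤ R := (norm_nonneg _).trans (e 0)
  have k1 : ∀ i, π x (Tg k E θ v i) = Tg k E θ v i := fun i => by
    have := congrFun (Tg_N θ (π x) v) i
    rw [← this, funext hv]
  constructor
  · rw [← n2_Tg θ v, ← one_mul (n2 _)]
    refine Fo.n2_ge zero_le_one R0 fun i => ?_
    have : Tg k E θ v i = π x (z i) - π x ((z - Tg k E θ v) i) := by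
      rw [Pi.sub_apply, map_sub, k1, sub_sub_cancel]
    rw [one_mul, this]
    exact (norm_sub_le _ _).trans (by linarith [pr_norm h x ((z - Tg k E θ v) i), e i])
  · rw [← n2_Tg θ v, ← one_mul (n2 z)]
    refine Fo.n2_ge zero_le_one R0 fun i => ?_
    have : z i = Tg k E θ v i + (z - Tg k E θ v) i := by rw [Pi.sub_apply, add_sub_cancel]
    rw [one_mul, this]
    exact (norm_add_le _ _).trans (by linarith [e i])

theorem n2_split (x : X) (y : V k E) :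
    n2 y ≤ n2 (fun i => π x (y i)) + n2 fun i => y i - π x (y i) := by
  refine le_trans (le_of_eq ?_) (Fo.n2_add _ _)
  congr 1; funext i; simp

theorem perp_le (h : IsPr π) (x : X) {y u : E} {R : ℝ} (e : ‖y - u‖ ≤ R) :
    ‖y - π x y‖ ≤ ‖u - π x u‖ + 2 * R ∧ ‖π x u‖ ≤ ‖π x y‖ + R := by
  have a := pr_norm h x (y - u)
  constructor
  · have : y - π x y = (u - π x u) + ((y - u) - π x (y - u)) := by rw [map_sub]; abel
    rw [this]
    exact (norm_add_le _ _).trans (by linarith [norm_sub_le (y - u) (π x (y - u))])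
  · have : π x u = π x y - π x (y - u) := by rw [map_sub, sub_sub_cancel]
    rw [this]
    exact (norm_sub_le _ _).trans (by linarith)
end tg

attribute [local irreducible] Tg

variable {X E₁ E₂ : Type} [TopologicalSpace X] [CompactSpace X] [T2Space X]
  [NormedAddCommGroup E₁] [InnerProductSpace ℂ E₁] [FiniteDimensional ℂ E₁]
  [NormedAddCommGroup E₂] [InnerProductSpace ℂ E₂] [FiniteDimensional ℂ E₂]
  {D : Data X E₁ E₂} {c κ R₀ M : ℝ} (h : D.Ok c κ R₀ M) {k : ℕ}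

theorem prop (E : Type) [NormedAddCommGroup E] [InnerProductSpace ℂ E] [FiniteDimensional ℂ E] :
    ProperSpace E := FiniteDimensional.proper ℂ E

theorem cut {a b : ℝ} (hκ : 0 < κ) (ha : 0 ≤ a) (hb : 0 ≤ b) (e : R₀ ≤ a → (1 + κ) * a ≤ b) :
    (1 + κ) * a ≤ b + (1 + κ) * |R₀| := by
  rcases le_total R₀ a with l | l
  · have := e l; have : 0 ≤ (1 + κ) * |R₀| := by positivity
    linarith
  · have := mul_le_mul_of_nonneg_left (l.trans (le_abs_self R₀)) (by linarith : 0 ≤ 1 + κ)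
    linarith

include h

theorem uxb (x : X) (z : E₂) : ‖D.π₂ x z‖ ≤ |R₀| + ‖D.π₁ x (D.u (x, z))‖ := by
  rcases le_total R₀ ‖D.π₂ x z‖ with l | l
  · nlinarith [h.ux x z l, h.hκ, norm_nonneg (D.π₂ x z), abs_nonneg R₀]
  · linarith [le_abs_self R₀, norm_nonneg (D.π₁ x (D.u (x, z)))]

/-- the first slot -/
theorem ybd (x : X) (θ : ℝ) {y : V k E₁} {ζ : V k E₂} {R : ℝ}
    (m : ∀ i, (x, Tg k E₁ θ y i) ∈ D.Ov) (e : ∀ i, ‖y i - D.u (x, ζ i)‖ ≤ R) :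
    n2 y ≤ (2 ^ (k + 1) : ℕ) * (|R₀| + M + 2 * R) ∧
      ∀ i, ‖D.π₂ x (ζ i)‖ ≤ |R₀| + (2 ^ (k + 1) : ℕ) * |R₀| + R := by
  have a : n2 (fun i => D.π₁ x (y i)) ≤ (2 ^ (k + 1) : ℕ) * |R₀| := by
    rw [← n2_N θ]
    exact Fo.n2_le _ fun i => (h.vb _ (m i)).trans (le_abs_self _)
  have b : n2 (fun i => y i - D.π₁ x (y i)) ≤ (2 ^ (k + 1) : ℕ) * (M + 2 * R) :=
    Fo.n2_le _ fun i => (perp_le h.p₁ x (e i)).1.trans (by linarith [h.ub x (ζ i)])
  refine ⟨by linarith [n2_split (π := D.π₁) x y], fun i => ?_⟩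
  linarith [uxb h x (ζ i), (perp_le h.p₁ x (e i)).2, Fo.le_n2 (fun i => D.π₁ x (y i)) i]

theorem okK : (D.K k).Ok := by
  have := prop E₁; have := prop E₂
  have ca : ∀ i, Continuous fun w : (X × ℝ × ℝ) × V k (E₁ × E₂) =>
      (w.1.1, Tg k E₁ w.1.2.1 (s1 w.2) i) := fun i => by fun_prop
  have cu := h.uc
  refine ok_of _ ca h.vo (fun _ => Iff.rfl)
    (fun x i => congrArg (Prod.mk _) (congrFun (Tg_sh _ (s1 x.2)) i))
    (cont_pr (fun i => Continuous.continuousOn (by fun_prop)) ((Continuous.continuousOn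
      (by fun_prop)).sub (cont_Tg' (by fun_prop) fun i =>
        h.vc.comp (ca i).continuousOn fun w m => m i)))
    (fun x => ?_) (fun _ => rfl) fun K hK R => ?_
  · have e : Tg k E₁ x.1.2.1 (s1 (sh k _ x.2)) = sh k _ (Tg k E₁ x.1.2.1 (s1 x.2)) :=
      Tg_sh _ (s1 x.2)
    have e2 := Tg_sh x.1.2.2 fun i => D.v (x.1.1, Tg k E₁ x.1.2.1 (s1 x.2) i)
    funext i
    refine Prod.ext rfl ?_
    change _ - Tg k E₂ _ (fun i => D.v (_, Tg k E₁ _ (s1 (sh k _ x.2)) i)) i = _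
    rw [e]
    exact congrArg (HSub.hSub _) (congrFun e2 i)
  · obtain ⟨Q, hQ⟩ : ∃ Q : ℝ, Q = (2 ^ (k + 1) : ℕ) := ⟨_, rfl⟩
    refine ⟨Q * (|R₀| + M + 2 * R) + (Q * (|R₀| + Q * |R₀| + R) + Q * R + Q * R), _,
      h.vk (Q * (|R₀| + M + 2 * R) + (Q * (|R₀| + Q * |R₀| + R) + Q * R + Q * R)),
      fun _ m => m.1, fun w m _ b => ?_⟩
    have b := pr_le b
    obtain ⟨y1, y2⟩ := ybd h _ _ m fun i => (b i).1
    obtain ⟨z1, z2⟩ := zbd h.p₂ w.1.1 _ (fun i => h.vp _ (m i)) fun i => (b i).2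
    have z3 := Fo.n2_le _ y2
    rw [← hQ] at y1 y2 z1 z2 z3
    have p := Fo.n2_nonneg (s1 w.2)
    have p' := Fo.n2_nonneg (s2 w.2)
    have p'' : 0 ≤ Q * R := mul_nonneg (hQ ▸ Nat.cast_nonneg _) ((norm_nonneg _).trans (b 0).1)
    refine ⟨(le_n2 w.2).trans (add_le_add y1 (by linarith)), fun i => ⟨m i, ?_, ?_⟩⟩
    · exact (Fo.le_n2 (fun i => D.v (w.1.1, Tg k E₁ w.1.2.1 (s1 w.2) i)) i).trans (by linarith)
    · exact ((Fo.le_n2 _ i).trans_eq (n2_Tg _ (s1 w.2))).trans (by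
      have := Fo.n2_nonneg fun i => D.v (w.1.1, Tg k E₁ w.1.2.1 (s1 w.2) i); linarith)

theorem ok2 : (PM.fm fun θ => D.a₂ k (Tg k E₁ θ)).Ok := by
  have := prop E₁; have := prop E₂
  have ca : ∀ i, Continuous fun w : ((X × ℝ) × ℝ) × V k (E₁ × E₂) =>
      (w.1.1.1, Tg k E₁ w.1.1.2 (s1 w.2) i) := fun i => by fun_prop
  have cv : ∀ i, ContinuousOn (fun w : ((X × ℝ) × ℝ) × V k (E₁ × E₂) =>
      D.v (w.1.1.1, Tg k E₁ w.1.1.2 (s1 w.2) i)) (PM.fm fun θ => D.a₂ k (Tg k E₁ θ)).O :=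
    fun i => h.vc.comp (ca i).continuousOn fun w m => m i
  have cs : Continuous fun w : ((X × ℝ) × ℝ) × V k (E₁ × E₂) => cl (w.1.2 - 2) := by fun_prop
  refine ok_of _ ca h.vo (fun _ => Iff.rfl)
    (fun x i => congrArg (Prod.mk _) (congrFun (Tg_sh _ (s1 x.2)) i))
    (cont_pr (fun i => (Continuous.continuousOn (by fun_prop)).sub (h.uc.comp_continuousOn
      ((Continuous.continuousOn (by fun_prop)).prodMk ((Continuous.continuousOn (by fun_prop)).add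
        ((continuous_const.sub cs).continuousOn.smul (cv i)))))) (continuousOn_pi.2 fun i =>
      (Continuous.continuousOn (by fun_prop)).sub (cs.continuousOn.smul (cv i))))
    (fun x => ?_) (fun _ => rfl) fun K hK R => ?_
  · have e : Tg k E₁ x.1.1.2 (s1 (sh k _ x.2)) = sh k _ (Tg k E₁ x.1.1.2 (s1 x.2)) :=
      Tg_sh _ (s1 x.2)
    funext i
    change (_ - D.u (_, _ + _ • D.v (_, Tg k E₁ _ (s1 (sh k _ x.2)) i)),
      _ - _ • D.v (_, Tg k E₁ _ (s1 (sh k _ x.2)) i)) = _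
    rw [e]; rfl
  · obtain ⟨Q, hQ⟩ : ∃ Q : ℝ, Q = (2 ^ (k + 1) : ℕ) := ⟨_, rfl⟩
    have Q0 : 0 ≤ Q := hQ ▸ Nat.cast_nonneg _
    refine ⟨Q * (|R₀| + M + 2 * R) + Q * (|R₀| + Q * |R₀| + 2 * R + R), _,
      h.vk (Q * (|R₀| + M + 2 * R) + (|R₀| + Q * |R₀| + 2 * R)),
      fun _ m => m.1, fun w m _ b => ?_⟩
    have b := pr_le b
    obtain ⟨y1, y2⟩ := ybd h _ _ m fun i => (b i).1
    rw [← hQ] at y1 y2
    have R0 : 0 ≤ R := (norm_nonneg _).trans (b 0).1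
    have v1 : ∀ i, ‖D.v (w.1.1.1, Tg k E₁ w.1.1.2 (s1 w.2) i)‖ ≤ |R₀| + Q * |R₀| + 2 * R := fun i => by
      have e := h.vp _ (m i)
      have y2 := y2 i
      have b2 := (b i).2
      dsimp only at e y2 b2
      generalize D.v (w.1.1.1, Tg k E₁ w.1.1.2 (s1 w.2) i) = v at e y2 b2 ⊢
      have k1 : cl (w.1.2 - 1) * cl (w.1.2 - 2) = cl (w.1.2 - 2) := cl_mul (by ring)
      have k2 : cl (w.1.2 - 1) • s2 w.2 i + (1 - cl (w.1.2 - 2)) • v =
          cl (w.1.2 - 1) • (s2 w.2 i - cl (w.1.2 - 2) • v) + v := by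
        rw [smul_sub, smul_smul, k1, sub_smul, one_smul]; abel
      rw [k2, map_add, e] at y2
      have k3 := (pr_norm h.p₂ w.1.1.1 _).trans ((smul_le (cl_mem (w.1.2 - 1)) _).trans b2)
      linarith [norm_sub_le _ _ |>.trans' (le_of_eq (congrArg norm (add_sub_cancel_left
        (D.π₂ w.1.1.1 (cl (w.1.2 - 1) • (s2 w.2 i - cl (w.1.2 - 2) • v))) v).symm))]
    have z1 : n2 (s2 w.2) ≤ Q * (|R₀| + Q * |R₀| + 2 * R + R) := hQ ▸ Fo.n2_le _ fun i => by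
      rw [hQ.symm]
      have := norm_add_le (s2 w.2 i - cl (w.1.2 - 2) • D.v (w.1.1.1, Tg k E₁ w.1.1.2 (s1 w.2) i))
        (cl (w.1.2 - 2) • D.v (w.1.1.1, Tg k E₁ w.1.1.2 (s1 w.2) i))
      rw [sub_add_cancel] at this
      linarith [(b i).2, (smul_le (cl_mem (w.1.2 - 2)) _).trans (v1 i)]
    have p := Fo.n2_nonneg (s1 w.2)
    have p' := (norm_nonneg _).trans (v1 0)
    refine ⟨(le_n2 w.2).trans (add_le_add y1 z1), fun i => ⟨m i, (v1 i).trans (by linarith), ?_⟩⟩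
    exact ((Fo.le_n2 _ i).trans_eq (n2_Tg _ (s1 w.2))).trans (by linarith)

theorem ok3 : (PM.fm fun θ => D.a₃ k (Tg k E₂ θ)).Ok := by
  have := prop E₁; have := prop E₂
  have cu := h.uc
  have ca : ∀ i, Continuous fun w : ((X × ℝ) × ℝ) × V k (E₁ × E₂) => (w.1.1.1,
      (1 - cl (w.1.2 - 4)) • s1 w.2 i + cl (w.1.2 - 3) • D.u (w.1.1.1, s2 w.2 i)) :=
    fun i => by fun_prop
  refine ok_of _ ca h.vo (fun _ => Iff.rfl) (fun x i => rfl)
    (cont_pr (fun i => Continuous.continuousOn (by fun_prop)) ((Continuous.continuousOn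
      (by fun_prop)).sub (cont_Tg' (by fun_prop) fun i =>
        h.vc.comp (ca i).continuousOn fun w m => m i)))
    (fun x => ?_) (fun _ => rfl) fun K hK R => ?_
  · have e2 := Tg_sh x.1.1.2 fun i => D.v (x.1.1.1,
      (1 - cl (x.1.2 - 4)) • s1 x.2 i + cl (x.1.2 - 3) • D.u (x.1.1.1, s2 x.2 i))
    funext i
    exact Prod.ext rfl (congrArg (HSub.hSub _) (congrFun e2 i))
  · obtain ⟨Q, hQ⟩ : ∃ Q : ℝ, Q = (2 ^ (k + 1) : ℕ) := ⟨_, rfl⟩
    have Q0 : 0 ≤ Q := hQ ▸ Nat.cast_nonneg _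
    refine ⟨Q * (M + |R₀| + 2 * R) + (Q * (2 * |R₀| + R) + Q * R + Q * R), _,
      h.vk (M + |R₀| + 2 * R + (Q * (2 * |R₀| + R) + Q * R)), fun _ m => m.1, fun w m _ b => ?_⟩
    have b := pr_le b
    have R0 : 0 ≤ R := (norm_nonneg _).trans (b 0).1
    have k0 : ∀ i, ‖(1 - cl (w.1.2 - 4)) • s1 w.2 i + cl (w.1.2 - 3) • D.u (w.1.1.1, s2 w.2 i) -
        D.u (w.1.1.1, s2 w.2 i)‖ ≤ R := fun i => by
      have k1 : cl (w.1.2 - 3) * cl (w.1.2 - 4) = cl (w.1.2 - 4) := cl_mul (by ring)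
      refine le_trans (le_of_eq (congrArg norm ?_)) ((smul_le (a := 1 - cl (w.1.2 - 4))
        ⟨by linarith [cl_mem (w.1.2 - 4)], by linarith [cl_mem (w.1.2 - 4)]⟩ _).trans (b i).1)
      have : (1 - cl (w.1.2 - 4)) * (1 - cl (w.1.2 - 3)) = 1 - cl (w.1.2 - 3) := by
        linear_combination k1
      rw [smul_sub, smul_smul, this, sub_smul 1 (cl (w.1.2 - 3)), one_smul]; abel
    have u1 : ∀ i, ‖D.π₁ w.1.1.1 (D.u (w.1.1.1, s2 w.2 i))‖ ≤ |R₀| + R := fun i =>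
      (perp_le h.p₁ _ (k0 i)).2.trans (by linarith [h.vb _ (m i), le_abs_self R₀])
    have u2 : ∀ i, ‖D.u (w.1.1.1, s2 w.2 i)‖ ≤ M + |R₀| + R := fun i => by
      have := norm_add_le (D.u (w.1.1.1, s2 w.2 i) - D.π₁ w.1.1.1 (D.u (w.1.1.1, s2 w.2 i)))
        (D.π₁ w.1.1.1 (D.u (w.1.1.1, s2 w.2 i)))
      rw [sub_add_cancel] at this
      linarith [h.ub w.1.1.1 (s2 w.2 i), u1 i]
    have y1 : n2 (s1 w.2) ≤ Q * (M + |R₀| + 2 * R) := hQ ▸ Fo.n2_le _ fun i => by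
      have := norm_add_le (s1 w.2 i - (1 - cl (w.1.2 - 3)) • D.u (w.1.1.1, s2 w.2 i))
        ((1 - cl (w.1.2 - 3)) • D.u (w.1.1.1, s2 w.2 i))
      rw [sub_add_cancel] at this
      linarith [(b i).1, (smul_le (a := 1 - cl (w.1.2 - 3))
        ⟨by linarith [cl_mem (w.1.2 - 3)], by linarith [cl_mem (w.1.2 - 3)]⟩ _).trans (u2 i)]
    obtain ⟨z1, z2⟩ := zbd h.p₂ w.1.1.1 _ (fun i => h.vp _ (m i)) fun i => (b i).2
    have z3 : n2 (fun i => D.π₂ w.1.1.1 (s2 w.2 i)) ≤ Q * (2 * |R₀| + R) :=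
      hQ ▸ Fo.n2_le _ fun i => by linarith [uxb h w.1.1.1 (s2 w.2 i), u1 i]
    rw [← hQ] at z1 z2
    have p := (norm_nonneg _).trans (u2 0)
    have p' := Fo.n2_nonneg fun i => D.π₂ w.1.1.1 (s2 w.2 i)
    have p'' := mul_nonneg Q0 R0
    refine ⟨(le_n2 w.2).trans (add_le_add y1 (by linarith)), fun i => ⟨m i, ?_, ?_⟩⟩
    · exact (Fo.le_n2 (fun i => D.v (w.1.1.1, (1 - cl (w.1.2 - 4)) • s1 w.2 i +
        cl (w.1.2 - 3) • D.u (w.1.1.1, s2 w.2 i))) i).trans (by linarith)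
    · have := norm_add_le ((1 - cl (w.1.2 - 4)) • s1 w.2 i + cl (w.1.2 - 3) •
        D.u (w.1.1.1, s2 w.2 i) - D.u (w.1.1.1, s2 w.2 i)) (D.u (w.1.1.1, s2 w.2 i))
      rw [sub_add_cancel] at this
      exact this.trans (by linarith [k0 i, u2 i])

theorem ok4 : (PM.fm fun θ => D.a₄ k (Tg k E₂ θ)).Ok := by
  have := prop E₁; have := prop E₂
  have ca : ∀ i, Continuous fun w : ((X × ℝ) × ℝ) × V k (E₁ × E₂) =>
      ((w.1.1.1, w.1.2 - 5), s2 w.2 i) := fun i => by fun_prop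
  refine ok_of _ ca h.o₂ (fun _ => Iff.rfl) (fun x i => rfl)
    (cont_pr (fun i => Continuous.continuousOn (by fun_prop)) ((Continuous.continuousOn
      (by fun_prop)).sub (cont_Tg' (by fun_prop) fun i =>
        h.c₂.comp (ca i).continuousOn fun w m => m i)))
    (fun x => ?_) (fun _ => rfl) fun K hK R => ?_
  · have e2 := Tg_sh x.1.1.2 fun i => D.h₂ ((x.1.1.1, x.1.2 - 5), s2 x.2 i)
    funext i
    exact Prod.ext rfl (congrArg (HSub.hSub _) (congrFun e2 i))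
  · obtain ⟨Q, hQ⟩ : ∃ Q : ℝ, Q = (2 ^ (k + 1) : ℕ) := ⟨_, rfl⟩
    have Q0 : 0 ≤ Q := hQ ▸ Nat.cast_nonneg _
    obtain ⟨S, hS⟩ := hK.exists_bound_of_continuousOn
      (f := fun b : (X × ℝ) × ℝ => b.2 - 5) (by fun_prop)
    have hκ := h.hκ
    obtain ⟨B, hB⟩ : ∃ B, κ * B = Q * R + Q * ((1 + κ) * |R₀|) :=
      ⟨_, mul_div_cancel₀ _ hκ.ne'⟩
    refine ⟨Q * R + (B + Q * R + Q * R), _, h.k₂ (|S| + (B + Q * R + Q * R)), fun _ m => m.1,
      fun w m mK b => ?_⟩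
    have b := pr_le b
    have R0 : 0 ≤ R := (norm_nonneg _).trans (b 0).1
    obtain ⟨z1, z2⟩ := zbd h.p₂ w.1.1.1 _ (fun i => (h.q₂ _ _ _).2.2) fun i => (b i).2
    have z3 := Fo.n2_ge (y := fun i => D.π₂ w.1.1.1 (s2 w.2 i))
      (z := fun i => D.h₂ ((w.1.1.1, w.1.2 - 5), s2 w.2 i)) (by linarith : 0 ≤ 1 + κ)
      (by positivity) fun i => cut hκ (norm_nonneg _) (norm_nonneg _) (h.x₂ _ (m i))
    have y1 : n2 (s1 w.2) ≤ Q * R := hQ ▸ Fo.n2_le _ fun i => (b i).1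
    rw [← hQ] at z1 z2 z3
    have z4 : n2 (fun i => D.π₂ w.1.1.1 (s2 w.2 i)) ≤ B :=
      le_of_mul_le_mul_left (by linarith) hκ
    have p' := Fo.n2_nonneg fun i => D.π₂ w.1.1.1 (s2 w.2 i)
    have p'' := mul_nonneg Q0 R0
    have p := abs_nonneg S
    refine ⟨(le_n2 w.2).trans (add_le_add y1 (by linarith)), fun i => ⟨m i, ?_, ?_, ?_⟩⟩
    · exact (hS _ mK).trans (by linarith [le_abs_self S])
    · exact (Fo.le_n2 (fun i => D.h₂ ((w.1.1.1, w.1.2 - 5), s2 w.2 i)) i).trans (by linarith)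
    · exact (Fo.le_n2 (s2 w.2) i).trans (by linarith)

theorem ok1 : (PM.fm fun θ => D.a₁ k (Tg k E₁ θ)).Ok := by
  have := prop E₁; have := prop E₂
  have ca : ∀ i, Continuous fun w : ((X × ℝ) × ℝ) × V k (E₁ × E₂) =>
      ((w.1.1.1, w.1.2), Tg k E₁ w.1.1.2 (s1 w.2) i) := fun i => by fun_prop
  refine ok_of _ ca h.o₁ (fun _ => Iff.rfl)
    (fun x i => congrArg (Prod.mk _) (congrFun (Tg_sh _ (s1 x.2)) i))
    (cont_pr (fun i => (Continuous.continuousOn (by fun_prop)).sub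
      (h.c₁.comp (ca i).continuousOn fun w m => m i)) (Continuous.continuousOn (by fun_prop)))
    (fun x => ?_) (fun _ => rfl) fun K hK R => ?_
  · have e : Tg k E₁ x.1.1.2 (s1 (sh k _ x.2)) = sh k _ (Tg k E₁ x.1.1.2 (s1 x.2)) :=
      Tg_sh _ (s1 x.2)
    funext i
    change (_ - D.h₁ (_, Tg k E₁ _ (s1 (sh k _ x.2)) i), _) = _
    rw [e]; rfl
  · obtain ⟨Q, hQ⟩ : ∃ Q : ℝ, Q = (2 ^ (k + 1) : ℕ) := ⟨_, rfl⟩
    have Q0 : 0 ≤ Q := hQ ▸ Nat.cast_nonneg _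
    obtain ⟨S, hS⟩ := hK.exists_bound_of_continuousOn
      (f := fun b : (X × ℝ) × ℝ => b.2) (by fun_prop)
    have hκ := h.hκ
    have hc : 0 < 1 - c := sub_pos.2 h.hc
    obtain ⟨B, hB⟩ : ∃ B, κ * B = Q * (R + (1 + κ) * |R₀|) := ⟨_, mul_div_cancel₀ _ hκ.ne'⟩
    obtain ⟨B', hB'⟩ : ∃ B', (1 - c) * B' = Q * (M + 2 * R) := ⟨_, mul_div_cancel₀ _ hc.ne'⟩
    refine ⟨B + B' + Q * R, _, h.k₁ (|S| + (B + B' + R)), fun _ m => m.1, fun w m mK b => ?_⟩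
    have b := pr_le b
    have R0 : 0 ≤ R := (norm_nonneg _).trans (b 0).1
    have M0 : 0 ≤ M := (norm_nonneg _).trans (h.ub w.1.1.1 0)
    have c0 : 0 ≤ c := (norm_nonneg _).trans (h.Cn w.1.1.1)
    have s1' : ∀ i, ‖Tg k E₁ w.1.1.2 (s1 w.2) i‖ ≤ n2 (s1 w.2) := fun i =>
      (Fo.le_n2 _ i).trans_eq (n2_Tg _ _)
    have y1 := Fo.n2_ge (y := fun i => D.π₁ w.1.1.1 (Tg k E₁ w.1.1.2 (s1 w.2) i))
      (z := fun i => D.π₁ w.1.1.1 (s1 w.2 i)) (C := R + (1 + κ) * |R₀|) (by linarith : 0 ≤ 1 + κ)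
      (by positivity) fun i => by
        linarith [cut hκ (norm_nonneg _) (norm_nonneg _) (h.x₁ _ (m i)),
          (perp_le h.p₁ w.1.1.1 (b i).1).2]
    have y2 := Fo.n2_ge (y := fun i => (1 - D.π₁ w.1.1.1) (s1 w.2 i))
      (z := c • fun i => (1 - D.π₁ w.1.1.1) (Tg k E₁ w.1.1.2 (s1 w.2) i)) (C := M + 2 * R)
      zero_le_one (by positivity) fun i => by
        rw [Pi.smul_apply, norm_smul, Real.norm_of_nonneg c0, one_mul]
        exact (perp_le h.p₁ w.1.1.1 (b i).1).1.trans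
          ((add_le_add (h.b₁ _ (m i)) le_rfl).trans_eq (by rw [add_comm M, add_assoc]; rfl))
    rw [n2_N, ← hQ] at y1
    rw [Fo.n2_smul, n2_N, Real.norm_of_nonneg c0, ← hQ] at y2
    have y3 : n2 (fun i => D.π₁ w.1.1.1 (s1 w.2 i)) ≤ B := le_of_mul_le_mul_left (by linarith) hκ
    have y4 : n2 (fun i => (1 - D.π₁ w.1.1.1) (s1 w.2 i)) ≤ B' :=
      le_of_mul_le_mul_left (by linarith) hc
    have y5 : n2 (s1 w.2) ≤ B + B' := (n2_split (π := D.π₁) w.1.1.1 _).trans (add_le_add y3 y4)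
    have z1 : n2 (s2 w.2) ≤ Q * R := hQ ▸ Fo.n2_le _ fun i => (b i).2
    have p := abs_nonneg S
    have p' := Fo.n2_nonneg (s1 w.2)
    refine ⟨(le_n2 w.2).trans (add_le_add y5 z1), fun i => ⟨m i, ?_, ?_, ?_⟩⟩
    · exact (hS _ mK).trans (by linarith [le_abs_self S])
    · have := norm_sub_le (s1 w.2 i)
        (s1 w.2 i - D.h₁ ((w.1.1.1, w.1.2), Tg k E₁ w.1.1.2 (s1 w.2) i))
      rw [sub_sub_cancel] at this
      exact this.trans (by linarith [(b i).1, Fo.le_n2 (s1 w.2) i])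
    · exact (s1' i).trans (by linarith)

end Ar

theorem arc : ARC := fun _ _ _ _ _ _ _ _ _ _ _ _ _ _ _ _ _ _ h =>
  ⟨Ar.ok1 h, Ar.ok2 h, Ar.ok3 h, Ar.ok4 h, Ar.okK h⟩

end Crest.Agent.N218.Pm

end
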