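import Crest.Agent.N218.Fo.Fo

/-!
# Row 218, blocks D2/D4/D5 (helper44): problems, proper families, abstract invariants, data
-/

set_option autoImplicit false
set_option linter.unusedVariables false

open Set Topology unitInterval

noncomputable section

namespace Crest.Agent.N218.Pm

/-- index set of order `q = 2^(k+1)` -/
abbrev Ix (k : ℕ) : Type := ZMod (2 ^ (k + 1))
/-- the regular representation -/
abbrev V (k : ℕ) (E : Type) : Type := Ix k → E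

section lin
variable {k : ℕ} {E E' : Type} [NormedAddCommGroup E] [NormedSpace ℝ E]
  [NormedAddCommGroup E'] [NormedSpace ℝ E']

variable (k E) in
/-- the shift `(sh y) i = y (i - 1)` -/
def sh : V k E →L[ℝ] V k E := ContinuousLinearMap.pi fun i => ContinuousLinearMap.proj (i - 1)
@[simp] theorem sh_apply (y : V k E) (i : Ix k) : sh k E y i = y (i - 1) := rfl

/-- the part of `y` that is odd under the element of order two -/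
def mn (y : V k E) : V k E := fun i => (1 / 2 : ℝ) • (y i - y (i + 2 ^ k))
/-- first slot -/
def s1 (w : V k (E × E')) : V k E := fun i => (w i).1
/-- second slot -/
def s2 (w : V k (E × E')) : V k E' := fun i => (w i).2
/-- two slots -/
def pr (y : V k E) (z : V k E') : V k (E × E') := fun i => (y i, z i)
end lin

/-! ## problems -/

/-- a partially defined map over the base `B` -/
structure Pb (B : Type) (k : ℕ) (E : Type) where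
  O : Set (B × V k E)
  h : B × V k E → V k E

namespace Pb
variable {B B' : Type} [TopologicalSpace B] [TopologicalSpace B'] {k : ℕ} {E E' : Type}
  [NormedAddCommGroup E] [NormedSpace ℝ E] [NormedAddCommGroup E'] [NormedSpace ℝ E']

/-- the zeros -/
def Z (P : Pb B k E) : Set (B × V k E) := {x ∈ P.O | P.h x = 0}
/-- free equivariant problems with compact zero set -/
structure Ok (P : Pb B k E) : Prop where
  op : IsOpen P.O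
  inv : ∀ x ∈ P.O, (x.1, sh k E x.2) ∈ P.O
  ct : ContinuousOn P.h P.O
  eq : ∀ x ∈ P.O, P.h (x.1, sh k E x.2) = sh k E (P.h x)
  cp : IsCompact P.Z
  fr : ∀ x ∈ P.O, mn x.2 ≠ 0
/-- change of base -/
def pull (φ : B' → B) (P : Pb B k E) : Pb B' k E :=
  ⟨{x | (φ x.1, x.2) ∈ P.O}, fun x => P.h (φ x.1, x.2)⟩
/-- restriction to a subset -/
def rs (P : Pb B k E) (N : Set (B × V k E)) : Pb B k E := ⟨P.O ∩ N, P.h⟩
/-- same domain, same values on it -/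
def Sm (P Q : Pb B k E) : Prop := P.O = Q.O ∧ EqOn P.h Q.h P.O
/-- one homotopy with compact zero set -/
def Ht (P Q : Pb B k E) : Prop :=
  ∃ R : Pb (B × I) k E, R.Ok ∧ Sm P (R.pull fun b => (b, 0)) ∧ Sm Q (R.pull fun b => (b, 1))
/-- `Q` is a restriction of `P` with the same zeros -/
def Gm (P Q : Pb B k E) : Prop :=
  P.Ok ∧ Q.Ok ∧ Q.O ⊆ P.O ∧ EqOn Q.h P.h Q.O ∧ P.Z ⊆ Q.O
/-- bordant problems -/
def Eqv : Pb B k E → Pb B k E → Prop := Relation.EqvGen fun P Q => Ht P Q ∨ Gm P Q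
variable (E') in
/-- stabilisation by the identity -/
def st (P : Pb B k E) : Pb B k (E × E') :=
  ⟨{x | (x.1, s1 x.2) ∈ P.O}, fun x => pr (P.h (x.1, s1 x.2)) (s2 x.2)⟩
/-- transport along a linear isomorphism -/
def cj {k' : ℕ} (e : V k' E' ≃L[ℝ] V k E) (P : Pb B k E) : Pb B k' E' :=
  ⟨{x | (x.1, e x.2) ∈ P.O}, fun x => e.symm (P.h (x.1, e x.2))⟩
/-- postcompose with a linear map -/
def pc (L : V k E →L[ℝ] V k E) (P : Pb B k E) : Pb B k E := ⟨P.O, fun x => L (P.h x)⟩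
/-- cut out the parameter interval `[0,1]` -/
def cut (P : Pb (B × ℝ) k E) : Pb (B × ℝ) k E :=
  P.pull fun b => (b.1, if b.2 ≤ 0 then b.2 else b.2 + 1)
/-- `Q` is the loop that `P` runs through on `[0,1]` -/
def Lp (P : Pb (B × ℝ) k E) (Q : Pb (B × UnitAddCircle) k E) : Prop :=
  ∀ x t y, t ∈ Icc (0 : ℝ) 1 → ((((x, t), y) ∈ P.O ↔ ((x, (t : UnitAddCircle)), y) ∈ Q.O) ∧
    (((x, t), y) ∈ P.O → P.h ((x, t), y) = Q.h ((x, (t : UnitAddCircle)), y)))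
end Pb

/-- finite-dimensional real normed spaces, bundled -/
structure Sp where
  E : Type
  [ng : NormedAddCommGroup E]
  [ns : NormedSpace ℝ E]
  [fd : FiniteDimensional ℝ E]
attribute [instance] Sp.ng Sp.ns Sp.fd
/-- bundle a space -/
abbrev sp (E : Type) [NormedAddCommGroup E] [NormedSpace ℝ E] [FiniteDimensional ℝ E] : Sp := ⟨E⟩

/-- equal up to sign -/
def Pe {A : Type} [AddCommGroup A] (a b : A) : Prop := a = b ∨ a = -b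

/-- an abstract invariant of paths and loops of problems over `X`, valid for `16 ≤ k` -/
structure Th (X : Type) [TopologicalSpace X] (A : Type) [AddCommGroup A] where
  pa : ∀ (k : ℕ) (S : Sp), Pb (X × ℝ) k S.E → A
  an : ∀ (k : ℕ) (S : Sp), Pb (X × UnitAddCircle) k S.E → A
  pa_eqv : ∀ k S P Q, 16 ≤ k → Pb.Eqv P Q → pa k S P = pa k S Q
  an_eqv : ∀ k S P Q, 16 ≤ k → Pb.Eqv P Q → an k S P = an k S Q
  pa_sum : ∀ k (S : Sp) (P : Pb (X × ℝ) k S.E) N N', 16 ≤ k → P.Ok → (P.rs N).Ok → (P.rs N').Ok →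
    Disjoint N N' → P.Z ⊆ N ∪ N' → pa k S P = pa k S (P.rs N) + pa k S (P.rs N')
  an_sum : ∀ k (S : Sp) (P : Pb (X × UnitAddCircle) k S.E) N N', 16 ≤ k → P.Ok → (P.rs N).Ok →
    (P.rs N').Ok → Disjoint N N' → P.Z ⊆ N ∪ N' → an k S P = an k S (P.rs N) + an k S (P.rs N')
  pa_st : ∀ k (S S' : Sp) (P : Pb (X × ℝ) k S.E), 16 ≤ k → P.Ok →
    Pe (pa k (sp (S.E × S'.E)) (P.st S'.E)) (pa k S P)
  an_st : ∀ k (S S' : Sp) (P : Pb (X × UnitAddCircle) k S.E), 16 ≤ k → P.Ok →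
    Pe (an k (sp (S.E × S'.E)) (P.st S'.E)) (an k S P)
  pa_cj : ∀ k (S S' : Sp) (e : V k S'.E ≃L[ℝ] V k S.E) (P : Pb (X × ℝ) k S.E), 16 ≤ k → P.Ok →
    (∀ y, e (sh k _ y) = sh k _ (e y)) → Pe (pa k S' (P.cj e)) (pa k S P)
  an_cj : ∀ k (S S' : Sp) (e : V k S'.E ≃L[ℝ] V k S.E) (P : Pb (X × UnitAddCircle) k S.E), 16 ≤ k →
    P.Ok → (∀ y, e (sh k _ y) = sh k _ (e y)) → Pe (an k S' (P.cj e)) (an k S P)
  pa_res : ∀ k (S S' : Sp) (e : V k S'.E ≃L[ℝ] V (k + 1) S.E) (P : Pb (X × ℝ) (k + 1) S.E), 16 ≤ k →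
    P.Ok → (∀ y, e (sh k _ y) = sh (k + 1) _ (sh (k + 1) _ (e y))) →
    Pe (pa k S' (P.cj e)) (pa (k + 1) S P)
  pants : ∀ k (S : Sp) (P : Pb (X × ℝ) k S.E) Q, 16 ≤ k → P.Ok → P.cut.Ok → Q.Ok → P.Lp Q →
    Pe (pa k S P - pa k S P.cut) (an k S Q)
  cst : ∀ k (S : Sp) (P : Pb X k S.E), 16 ≤ k → P.Ok → an k S (P.pull Prod.fst) = 0
  tor : ∀ k S P, 16 ≤ k → P.Ok → (32 : ℕ) • pa k S P = 0

/-! ## families of proper maps -/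

/-- a family of proper equivariant maps with a normal map -/
structure PM (B : Type) (k : ℕ) (E : Type) [NormedAddCommGroup E] [NormedSpace ℝ E] where
  O : Set (B × V k E)
  P : B × V k E → V k E
  n : B → V k E →L[ℝ] V k E

section pm
variable {B B' : Type} [TopologicalSpace B] [TopologicalSpace B'] {k : ℕ} {E : Type}
  [NormedAddCommGroup E] [NormedSpace ℝ E]

/-- the axioms -/
structure PM.Ok (A : PM B k E) : Prop where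
  op : IsOpen A.O
  inv : ∀ x ∈ A.O, (x.1, sh k E x.2) ∈ A.O
  ct : ContinuousOn A.P A.O
  eq : ∀ x ∈ A.O, A.P (x.1, sh k E x.2) = sh k E (A.P x)
  pp : ∀ K, IsCompact K → ∀ R : ℝ, IsCompact {x ∈ A.O | x.1 ∈ K ∧ ‖A.P x‖ ≤ R}
  nc : Continuous A.n
  ne : ∀ b y, A.n b (sh k E y) = sh k E (A.n b y)
  ni : ∀ b y, A.n b (mn y) = 0 → mn y = 0
/-- normalising functions -/
structure Tau (δ : ℝ) (τ : B × V k E → ℝ) : Prop where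
  ct : Continuous τ
  inv : ∀ x, τ (x.1, sh k E x.2) = τ x
  mem : ∀ x, τ x ∈ Icc (0 : ℝ) 1
  z : ∀ K, IsCompact K → ∃ δ' > 0, ∀ x : B × V k E, x.1 ∈ K → ‖mn x.2‖ < δ' → τ x = 0
  o : ∀ x : B × V k E, δ ≤ ‖mn x.2‖ → τ x = 1
/-- the standard normalising function -/
def tau (δ : ℝ) (x : B × V k E) : ℝ := max 0 (min 1 (2 * ‖mn x.2‖ / δ - 1))
/-- the free part -/
def PM.F (A : PM B k E) (τ : B × V k E → ℝ) : Pb B k E :=
  ⟨{x | mn x.2 ≠ 0 ∧ (x.1, x.2 - (1 - τ x) • mn x.2) ∈ A.O},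
    fun x => A.P (x.1, x.2 - (1 - τ x) • mn x.2) + (1 - τ x) • A.n x.1 (mn x.2)⟩
/-- no free zero over `b` -/
def PM.NoZ (A : PM B k E) (δ : ℝ) (b : B) : Prop :=
  ∀ (y : V k E) (t : ℝ), t ∈ Icc (0 : ℝ) 1 → (t = 1 ∨ ‖mn y‖ ≤ δ) →
    (b, y - (1 - t) • mn y) ∈ A.O → A.P (b, y - (1 - t) • mn y) + (1 - t) • A.n b (mn y) = 0 →
    mn y = 0
/-- free zeros only over a compact set -/
def PM.Cs (A : PM B k E) (δ : ℝ) : Prop := ∃ K, IsCompact K ∧ ∀ b ∉ K, A.NoZ δ b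
/-- change of base -/
def PM.pull (φ : B' → B) (A : PM B k E) : PM B' k E :=
  ⟨{x | (φ x.1, x.2) ∈ A.O}, fun x => A.P (φ x.1, x.2), fun b => A.n (φ b)⟩
open Classical in
/-- concatenation at the parameter `c` -/
def PM.glue (c : ℝ) (A A' : PM (B × ℝ) k E) : PM (B × ℝ) k E :=
  ⟨{x | if x.1.2 ≤ c then x ∈ A.O else x ∈ A'.O},
    fun x => if x.1.2 ≤ c then A.P x else A'.P x, fun b => if b.2 ≤ c then A.n b else A'.n b⟩
variable (k) in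
/-- the periodic-point map `y i - f (y (i-1))` of a partial map `f` -/
def Psi (O : Set (B × E)) (f : B × E → E) : PM B k E :=
  ⟨{x | ∀ i, (x.1, x.2 i) ∈ O}, fun x i => x.2 i - f (x.1, x.2 (i - 1)), fun _ => 1⟩
/-- the canonical problem of one family: `P w + e^t n w⁻` -/
def PM.Ec (A : PM B k E) : Pb (B × ℝ) k E :=
  ⟨{x | mn x.2 ≠ 0 ∧ (x.1.1, x.2) ∈ A.O},
    fun x => A.P (x.1.1, x.2) + Real.exp x.1.2 • A.n x.1.1 (mn x.2)⟩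
/-- admissible families -/
def PM.Adm (A : PM B k E) : Prop := A.Ec.Ok ∧ ∀ x ∈ A.O, A.P x = 0 → mn x.2 = 0
/-- a bound that makes the problem empty for large `δ` -/
def PM.Bd (A : PM B k E) : Prop := ∃ R : ℝ, ∀ x ∈ A.O, ∀ s : ℝ, 0 ≤ s →
  A.P x + s • A.n x.1 (mn x.2) = 0 → (1 + s) * ‖mn x.2‖ ≤ R
variable (k) in
/-- the canonical problem of a partial map `f` -/
def Ec (O : Set (B × E)) (f : B × E → E) : Pb (B × ℝ) k E := (Psi k O f).Ec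
end pm

/-- a representative in `[0,1)` -/
def rep (t : UnitAddCircle) : ℝ := (AddCircle.equivIco 1 0 t : ℝ)

/-- clamp to `[0,1]` -/
def cl (t : ℝ) : ℝ := max 0 (min 1 t)

/-! ## hyperbolic pointed data -/

/-- continuous fields of complex orthogonal projections -/
structure IsPr {X E : Type} [TopologicalSpace X] [NormedAddCommGroup E] [InnerProductSpace ℂ E]
    (π : X → E →L[ℂ] E) : Prop where
  ct : Continuous π
  id : ∀ x y, π x (π x y) = π x y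
  sa : ∀ x y z, inner ℂ (π x y) z = inner ℂ y (π x z)

/-- the data `(v, u, H¹, H²)` -/
structure Data (X E₁ E₂ : Type) [NormedAddCommGroup E₁] [InnerProductSpace ℂ E₁]
    [NormedAddCommGroup E₂] [InnerProductSpace ℂ E₂] where
  π₁ : X → E₁ →L[ℂ] E₁
  π₂ : X → E₂ →L[ℂ] E₂
  C : X → E₁ →L[ℝ] E₁
  μ : ℝ
  u : X × E₂ → E₁
  Ov : Set (X × E₁)
  v : X × E₁ → E₂
  O₁ : Set ((X × ℝ) × E₁)
  h₁ : (X × ℝ) × E₁ → E₁
  O₂ : Set ((X × ℝ) × E₂)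
  h₂ : (X × ℝ) × E₂ → E₂

namespace Data
variable {X E₁ E₂ : Type} [TopologicalSpace X] [NormedAddCommGroup E₁] [InnerProductSpace ℂ E₁]
  [NormedAddCommGroup E₂] [InnerProductSpace ℂ E₂] (D : Data X E₁ E₂)

/-- the axioms (`X` compact) -/
structure Ok (c κ R₀ M : ℝ) : Prop where
  p₁ : IsPr D.π₁
  p₂ : IsPr D.π₂
  hμ : 1 < D.μ
  hc : c < 1
  hκ : 0 < κ
  Cc : Continuous D.C
  Cn : ∀ x, ‖D.C x‖ ≤ c
  Cp : ∀ x y, D.π₁ x (D.C x y) = 0 ∧ D.C x (D.π₁ x y) = 0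
  uc : Continuous D.u
  up : ∀ x z, D.u (x, D.π₂ x z) = D.u (x, z)
  ub : ∀ x z, ‖D.u (x, z) - D.π₁ x (D.u (x, z))‖ ≤ M
  ux : ∀ x z, R₀ ≤ ‖D.π₂ x z‖ → (1 + κ) * ‖D.π₂ x z‖ ≤ ‖D.π₁ x (D.u (x, z))‖
  vo : IsOpen D.Ov
  vc : ContinuousOn D.v D.Ov
  vp : ∀ w ∈ D.Ov, D.π₂ w.1 (D.v w) = D.v w
  vk : ∀ R : ℝ, IsCompact {w ∈ D.Ov | ‖D.v w‖ ≤ R ∧ ‖w.2‖ ≤ R}
  vb : ∀ w ∈ D.Ov, ‖D.π₁ w.1 w.2‖ ≤ R₀
  o₁ : IsOpen D.O₁
  c₁ : ContinuousOn D.h₁ D.O₁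
  k₁ : ∀ R : ℝ, IsCompact {w ∈ D.O₁ | |w.1.2| ≤ R ∧ ‖D.h₁ w‖ ≤ R ∧ ‖w.2‖ ≤ R}
  b₁ : ∀ w ∈ D.O₁, ‖D.h₁ w - D.π₁ w.1.1 (D.h₁ w)‖ ≤ M + c * ‖w.2 - D.π₁ w.1.1 w.2‖
  x₁ : ∀ w ∈ D.O₁, R₀ ≤ ‖D.π₁ w.1.1 w.2‖ → (1 + κ) * ‖D.π₁ w.1.1 w.2‖ ≤ ‖D.π₁ w.1.1 (D.h₁ w)‖
  l₁ : ∀ x s y, s ≤ 0 → ((x, s), y) ∈ D.O₁ ∧ D.h₁ ((x, s), y) = D.C x y + D.μ • D.π₁ x y
  r₁ : ∀ x s y, 1 ≤ s → (((x, s), y) ∈ D.O₁ ↔ (x, y) ∈ D.Ov) ∧
    ((x, y) ∈ D.Ov → D.h₁ ((x, s), y) = D.u (x, D.v (x, y)))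
  o₂ : IsOpen D.O₂
  c₂ : ContinuousOn D.h₂ D.O₂
  q₂ : ∀ x s z, (((x, s), z) ∈ D.O₂ ↔ ((x, s), D.π₂ x z) ∈ D.O₂) ∧
    D.h₂ ((x, s), D.π₂ x z) = D.h₂ ((x, s), z) ∧ D.π₂ x (D.h₂ ((x, s), z)) = D.h₂ ((x, s), z)
  k₂ : ∀ R : ℝ, IsCompact {w ∈ D.O₂ | |w.1.2| ≤ R ∧ ‖D.h₂ w‖ ≤ R ∧ ‖w.2‖ ≤ R}
  x₂ : ∀ w ∈ D.O₂, R₀ ≤ ‖D.π₂ w.1.1 w.2‖ → (1 + κ) * ‖D.π₂ w.1.1 w.2‖ ≤ ‖D.h₂ w‖
  l₂ : ∀ x s z, s ≤ 0 → (((x, s), z) ∈ D.O₂ ↔ (x, D.u (x, z)) ∈ D.Ov) ∧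
    ((x, D.u (x, z)) ∈ D.Ov → D.h₂ ((x, s), z) = D.v (x, D.u (x, z)))
  r₂ : ∀ x s z, 1 ≤ s → ((x, s), z) ∈ D.O₂ ∧ D.h₂ ((x, s), z) = D.μ • D.π₂ x z

variable (k : ℕ) (T₁ : V k E₁ →L[ℝ] V k E₁) (T₂ : V k E₂ →L[ℝ] V k E₂)

/-- first arc, parameter in `[0,1]` : from the linear map to `u v` -/
def a₁ : PM (X × ℝ) k (E₁ × E₂) :=
  ⟨{w | ∀ i, (w.1, T₁ (s1 w.2) i) ∈ D.O₁},
    fun w => pr (fun i => s1 w.2 i - D.h₁ (w.1, T₁ (s1 w.2) i)) (s2 w.2), fun _ => 1⟩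
/-- second arc, parameter in `[1,3]` : shears to the junction -/
def a₂ : PM (X × ℝ) k (E₁ × E₂) :=
  ⟨{w | ∀ i, (w.1.1, T₁ (s1 w.2) i) ∈ D.Ov},
    fun w => pr (fun i => s1 w.2 i - D.u (w.1.1, cl (w.1.2 - 1) • s2 w.2 i +
        (1 - cl (w.1.2 - 2)) • D.v (w.1.1, T₁ (s1 w.2) i)))
      (fun i => s2 w.2 i - cl (w.1.2 - 2) • D.v (w.1.1, T₁ (s1 w.2) i)), fun _ => 1⟩
/-- third arc, parameter in `[3,5]` : shears from the junction -/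
def a₃ : PM (X × ℝ) k (E₁ × E₂) :=
  ⟨{w | ∀ i, (w.1.1, (1 - cl (w.1.2 - 4)) • s1 w.2 i +
      cl (w.1.2 - 3) • D.u (w.1.1, s2 w.2 i)) ∈ D.Ov},
    fun w => pr (fun i => s1 w.2 i - (1 - cl (w.1.2 - 3)) • D.u (w.1.1, s2 w.2 i))
      (s2 w.2 - T₂ fun i => D.v (w.1.1, (1 - cl (w.1.2 - 4)) • s1 w.2 i +
        cl (w.1.2 - 3) • D.u (w.1.1, s2 w.2 i))), fun _ => 1⟩
/-- fourth arc, parameter in `[5,6]` : from `v u` to the linear map -/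
def a₄ : PM (X × ℝ) k (E₁ × E₂) :=
  ⟨{w | ∀ i, ((w.1.1, w.1.2 - 5), s2 w.2 i) ∈ D.O₂},
    fun w => pr (s1 w.2) (s2 w.2 - T₂ fun i => D.h₂ ((w.1.1, w.1.2 - 5), s2 w.2 i)), fun _ => 1⟩
/-- the whole path (meaningful for `T = sh` and for `T = 1`) -/
def path : PM (X × ℝ) k (E₁ × E₂) :=
  PM.glue 1 (D.a₁ k T₁) (PM.glue 3 (D.a₂ k T₁) (PM.glue 5 (D.a₃ k T₂) (D.a₄ k T₂)))
/-- the coupled path -/
def Y : PM (X × ℝ) k (E₁ × E₂) := D.path k (sh k E₁) (sh k E₂)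
/-- the orbit loop `(-N u z, -g_r N v g_(-r) y)` (identity on the complements), normal map `1` -/
def Orb : PM (X × UnitAddCircle) k (E₁ × E₂) :=
  ⟨{w | ∀ i, (w.1.1, Fo.g (-rep w.1.2) (s1 w.2) i) ∈ D.Ov},
    fun w => pr (fun i => s1 w.2 i - D.π₁ w.1.1 (s1 w.2 i) - D.u (w.1.1, s2 w.2 i))
      ((fun i => s2 w.2 i - D.π₂ w.1.1 (s2 w.2 i)) -
        Fo.g (rep w.1.2) fun i => D.v (w.1.1, Fo.g (-rep w.1.2) (s1 w.2) i)), fun _ => 1⟩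
end Data

/-! ## the block outputs -/

/-- **ALG** (square, pants, doubling) -/
def ALG : Prop :=
  ∀ (X : Type) [TopologicalSpace X] [CompactSpace X] [T2Space X] (A : Type) [AddCommGroup A]
    (T : Th X A) (E₁ E₂ : Type) [NormedAddCommGroup E₁] [InnerProductSpace ℂ E₁]
    [FiniteDimensional ℂ E₁] [NormedAddCommGroup E₂] [InnerProductSpace ℂ E₂]
    [FiniteDimensional ℂ E₂] (D : Data X E₁ E₂) (c κ R₀ M : ℝ) (k : ℕ) (δ : ℝ),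
    D.Ok c κ R₀ M → 21 ≤ k → 0 < δ →
    ((D.Y k).F (tau δ)).Ok ∧ ((D.Orb k).F (tau δ)).Ok ∧
      Pe (T.pa k (sp (E₁ × E₂)) ((D.Y k).F (tau δ))) (T.an k (sp (E₁ × E₂)) ((D.Orb k).F (tau δ)))

/-- **EcF** : a path of families, admissible outside `[0,1]` -/
def ECF : Prop :=
  ∀ (X : Type) [TopologicalSpace X] [CompactSpace X] [T2Space X] (A : Type) [AddCommGroup A]
    (T : Th X A) (k : ℕ) (S : Sp) (a b : ℝ) (Q : PM (X × ℝ) k S.E), 16 ≤ k → a ≤ b → Q.Ok →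
    (∀ x s, s ≤ a → ∀ y, (((x, s), y) ∈ Q.O ↔ ((x, a), y) ∈ Q.O) ∧
      (((x, s), y) ∈ Q.O → Q.P ((x, s), y) = Q.P ((x, a), y)) ∧ Q.n (x, s) = Q.n (x, a)) →
    (∀ x s, b ≤ s → ∀ y, (((x, s), y) ∈ Q.O ↔ ((x, b), y) ∈ Q.O) ∧
      (((x, s), y) ∈ Q.O → Q.P ((x, s), y) = Q.P ((x, b), y)) ∧ Q.n (x, s) = Q.n (x, b)) →
    (Q.pull fun x => (x, a)).Adm → (Q.pull fun x => (x, b)).Adm → Q.Bd →
    ∃ δ₀ > 0, ∀ δ, 0 < δ → δ < δ₀ → (Q.F (tau δ)).Ok ∧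
      Pe (T.pa k S (Q.F (tau δ)))
        (T.pa k S (Q.pull fun x => (x, b)).Ec - T.pa k S (Q.pull fun x => (x, a)).Ec)

end Crest.Agent.N218.Pm

end
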