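import Crest.Agent.N218.Fo.L2_Mg
import Crest.Agent.N218.Pm.Kit1

-- ▼ part N218/Pm/Sq0
section

/-!
# Row 218, block ALG (helper45): linear algebra of the ends
-/

set_option autoImplicit false
set_option linter.unusedVariables false
set_option linter.unusedSectionVars false

open Set Topology unitInterval Complex

noncomputable section

namespace Crest.Agent.N218.Pm.Sq

open Fo (g gs mu n2)

theorem symb {θ t μ b : ℝ} (hθ : θ ∈ Icc (0 : ℝ) 1) (ht : t ∈ Icc (0 : ℝ) 1) (hμ : 1 < μ)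
    (b0 : 0 < b) (b1 : b < 2 * Real.pi) :
    (t : ℂ) * (1 - μ * exp ((-(θ * b) : ℝ) * Complex.I)) +
      (1 - t) * exp ((Real.pi * (1 - θ) : ℝ) * Complex.I) ≠ 0 := fun h => by
  have hp := Real.pi_pos
  set A := θ * Real.pi with hA
  set o := θ * (Real.pi - b) with ho
  have e : (t : ℂ) * exp ((A : ℝ) * Complex.I) - t * μ * exp ((o : ℝ) * Complex.I) - (1 - t) = 0 := by
    have e1 : exp ((o : ℝ) * Complex.I) = exp ((-(θ * b) : ℝ) * Complex.I) * exp (A * Complex.I) := by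
      rw [← exp_add]; congr 1; rw [ho, hA]; push_cast; ring
    have e2 : exp ((Real.pi * (1 - θ) : ℝ) * Complex.I) * exp (A * Complex.I) = -1 := by
      rw [← exp_add, ← exp_pi_mul_I]; congr 1; rw [hA]; push_cast; ring
    rw [e1]
    linear_combination exp (A * Complex.I) * h - (1 - t) * e2
  have re := congrArg Complex.re e
  have im := congrArg Complex.im e
  simp only [sub_re, mul_re, ofReal_re, exp_ofReal_mul_I_re, ofReal_im, exp_ofReal_mul_I_im,
    zero_mul, sub_zero, one_re, zero_re, sub_im, mul_im, add_zero, one_im, zero_im, mul_zero] at re im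
  have a1 : |Real.pi - b| < Real.pi := abs_lt.2 ⟨by linarith, by linarith⟩
  have a2 : |o| ≤ A := by
    rw [ho, abs_mul, abs_of_nonneg hθ.1]; exact mul_le_mul_of_nonneg_left a1.le hθ.1
  have a3 : |o| < Real.pi := by
    rw [ho, abs_mul, abs_of_nonneg hθ.1]
    exact (mul_le_of_le_one_left (abs_nonneg _) hθ.2).trans_lt a1
  have c1 : Real.cos A ≤ Real.cos o := by
    rw [← Real.cos_abs o]
    exact Real.cos_le_cos_of_nonneg_of_le_pi (abs_nonneg _) (mul_le_of_le_one_left hp.le hθ.2) a2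
  have c2 : -1 < Real.cos o := by
    rw [← Real.cos_abs o, ← Real.cos_pi]
    exact Real.cos_lt_cos_of_nonneg_of_le_pi (abs_nonneg _) le_rfl a3
  rcases ht.1.eq_or_lt with rfl | t0
  · norm_num at re
  have i1 : Real.sin A = μ * Real.sin o := mul_left_cancel₀ t0.ne' (by linarith)
  have r1 : μ * Real.cos o ≤ Real.cos A := le_of_mul_le_mul_left (by linarith [ht.2]) t0
  have r2 : Real.cos o ≤ 0 := by nlinarith
  have s1 := Real.sin_sq_add_cos_sq A
  have s2 := Real.sin_sq_add_cos_sq o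
  have s3 : Real.cos o ^ 2 ≤ Real.cos A ^ 2 := by nlinarith
  have s4 : Real.cos o ^ 2 < 1 := by nlinarith
  rw [i1] at s1
  have : 1 < μ ^ 2 := by nlinarith
  nlinarith

variable {k : ℕ} {E F : Type} [NormedAddCommGroup E] [InnerProductSpace ℂ E]
  [NormedAddCommGroup F] [InnerProductSpace ℂ F]

theorem hq (k : ℕ) : 2 ^ (k + 1) = 2 ^ k + 2 ^ k := by ring

theorem mn_yk (y : V k E) : mn y = Yk.mn (Equiv.addRight ((2 ^ k : ℕ) : Ix k)) y := by
  funext i; simp [mn, Yk.mn]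

theorem Tg_apply (θ : ℝ) (y : V k E) : Tg k E θ y = g (-θ) y := rfl
theorem Tg_zero : Tg k E 0 = 1 := ContinuousLinearMap.ext fun y => by
  rw [Tg_apply, neg_zero, Fo.g_zero]; rfl
theorem Tg_one : Tg k E 1 = sh k E := ContinuousLinearMap.ext fun y => by
  rw [Tg_apply, Fo.g_neg_one]; funext i; simp [Fo.sh, sub_eq_add_neg]
theorem Tg_add (a b : ℝ) (y : V k E) : Tg k E (a + b) y = Tg k E a (Tg k E b y) := by
  rw [Tg_apply, neg_add, Fo.g_add]; rfl
theorem Tg_succ (a : ℝ) (y : V k E) : Tg k E (a + 1) y = sh k E (Tg k E a y) := by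
  rw [add_comm, Tg_add, Tg_one]
theorem Tg_succ' (a : ℝ) (y : V k E) : Tg k E (a + 1) y = Tg k E a (sh k E y) := by
  rw [Tg_add, Tg_one]
theorem n2_Tg (θ : ℝ) (y : V k E) : n2 (Tg k E θ y) = n2 y := Fo.n2_g _ _
theorem Tg_N (θ : ℝ) (A : E →L[ℂ] F) (y : V k E) :
    Tg k F θ (fun i => A (y i)) = fun i => A (Tg k E θ y i) := Fo.mu_N _ _ _

theorem rot_apply (π : E →L[ℂ] E) (a : ℝ) (y : E) :
    rot π a y = y + (exp (a * Complex.I) - 1) • π y := rfl
theorem rot_zero (π : E →L[ℂ] E) (y : E) : rot π 0 y = y := by simp [rot_apply]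
theorem pi_rot {π : E →L[ℂ] E} (h : ∀ y, π (π y) = π y) (a : ℝ) (y : E) :
    π (rot π a y) = exp (a * Complex.I) • π y := by
  rw [rot_apply, map_add, map_smul, h]; module
theorem rot_inj {π : E →L[ℂ] E} (h : ∀ y, π (π y) = π y) {a : ℝ} {y : E} (e : rot π a y = 0) :
    y = 0 := by
  have := pi_rot h a y
  rw [e, map_zero] at this
  rwa [rot_apply, (smul_eq_zero.1 this.symm).resolve_left (exp_ne_zero _), smul_zero, add_zero] at e
theorem rot_pi (π : E →L[ℂ] E) (y : E) : rot π Real.pi y = y - (2 : ℝ) • π y := by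
  rw [rot_apply, exp_pi_mul_I, ← Complex.coe_smul]; push_cast; module
theorem rot_cont {T : Type} [TopologicalSpace T] {π : T → E →L[ℂ] E} {a : T → ℝ}
    (hπ : Continuous π) (ha : Continuous a) : Continuous fun t => rot (π t) (a t) :=
  (ContinuousLinearMap.restrictScalarsL ℂ E E ℝ ℝ).continuous.comp
    (f := fun t => 1 + (exp (a t * Complex.I) - 1) • π t) (by fun_prop)

/-- the expanding block of the pencil -/
theorem pen {θ t μ : ℝ} (hθ : θ ∈ Icc (0 : ℝ) 1) (ht : t ∈ Icc (0 : ℝ) 1) (hμ : 1 < μ) {p : V k E}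
    (hp : mn p = p) (h : t • (p - μ • Tg k E θ p) +
      (1 - t) • exp ((Real.pi * (1 - θ) : ℝ) * Complex.I) • p = 0) : p = 0 := by
  refine Fo.D_zero fun j => ?_
  by_cases hj : Odd j.val
  · have e := congrFun (congrArg (Fo.D _ E) h) j
    rw [← Complex.coe_smul, ← Complex.coe_smul, ← Complex.coe_smul] at e
    simp only [map_add, map_smul, map_sub, Pi.add_apply, Pi.smul_apply, Pi.sub_apply, Tg_apply, g,
      Fo.D_mu, map_zero, Pi.zero_apply] at e
    have q0 : (0 : ℝ) < (2 ^ (k + 1) : ℕ) := by positivity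
    have j0 : (0 : ℝ) < j.val := Nat.cast_pos.2 hj.pos
    have j1 : (j.val : ℝ) < (2 ^ (k + 1) : ℕ) := Nat.cast_lt.2 (ZMod.val_lt j)
    have s := symb hθ ht hμ (b := 2 * Real.pi * (j.val / (2 ^ (k + 1) : ℕ))) (by positivity)
      (mul_lt_of_lt_one_right (by positivity) ((div_lt_one q0).2 j1))
    refine (smul_eq_zero.1 ?_).resolve_left s
    have e2 : gs (-θ) j =
        exp ((-(θ * (2 * Real.pi * (j.val / (2 ^ (k + 1) : ℕ)))) : ℝ) * Complex.I) := by
      rw [gs]; congr 1; push_cast; ring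
    rw [← e2, ← e]; push_cast; module
  · have := Fo.D_mn (hq k) p j
    rwa [← mn_yk, hp, if_neg hj] at this

theorem mn_N {E' F' : Type} [NormedAddCommGroup E'] [NormedSpace ℝ E'] [NormedAddCommGroup F']
    [NormedSpace ℝ F'] (A : E' →L[ℝ] F') (y : V k E') : mn (fun i => A (y i)) = fun i => A (mn y i) :=
  funext fun i => by simp [mn]

/-- the pencil of the left end -/
theorem penL {θ t μ c : ℝ} (hθ : θ ∈ Icc (0 : ℝ) 1) (ht : t ∈ Icc (0 : ℝ) 1) (hμ : 1 < μ)
    (hc : c < 1) {π : E →L[ℂ] E} (hπ : ∀ y, π (π y) = π y) {C : E →L[ℝ] E} (hC : ‖C‖ ≤ c)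
    (h1 : ∀ y, π (C y) = 0) {y : V k E} (hy : mn y = y)
    (h : ∀ i, t • (y i - (C (Tg k E θ y i) + μ • π (Tg k E θ y i))) +
      (1 - t) • rot π (Real.pi * (1 - θ)) (y i) = 0) : y = 0 := by
  have hp : (fun i => π (y i)) = 0 := pen hθ ht hμ
    ((mn_N (π.restrictScalars ℝ) y).trans (by rw [hy]; rfl)) (funext fun i => by
      have := congrArg π (h i)
      simp only [map_add, π.map_smul_of_tower, map_sub, h1, hπ, pi_rot hπ, map_zero, zero_add] at this
      rw [Tg_N]; exact this)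
  have hp' : ∀ i, π (Tg k E θ y i) = 0 := fun i => by
    have := Tg_N θ π y
    rw [hp, map_zero] at this
    exact (congrFun this i).symm
  have e : ∀ i, ‖y i‖ ≤ ‖(c • Tg k E θ y) i‖ := fun i => by
    have a := h i
    rw [hp', rot_apply, congrFun hp i] at a
    have b : y i = t • C (Tg k E θ y i) := by
      simp only [Pi.zero_apply, smul_zero, add_zero] at a
      linear_combination (norm := module) a
    have c0 : 0 ≤ c := (norm_nonneg _).trans hC
    rw [Pi.smul_apply, norm_smul, Real.norm_of_nonneg c0]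
    refine (congrArg norm b).trans_le ?_
    rw [norm_smul, Real.norm_of_nonneg ht.1]
    exact (mul_le_of_le_one_left (norm_nonneg _) ht.2).trans ((C.le_opNorm _).trans
      (mul_le_mul_of_nonneg_right hC (norm_nonneg _)))
  have := Fo.n2_mono e
  rw [Fo.n2_smul, n2_Tg, Real.norm_of_nonneg ((norm_nonneg _).trans hC)] at this
  exact Fo.n2_eq_zero (by nlinarith [Fo.n2_nonneg y])

/-- the pencil of the right end -/
theorem penR {θ t μ : ℝ} (hθ : θ ∈ Icc (0 : ℝ) 1) (ht : t ∈ Icc (0 : ℝ) 1) (hμ : 1 < μ)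
    {π : E →L[ℂ] E} (hπ : ∀ y, π (π y) = π y) {y : V k E} (hy : mn y = y)
    (h : ∀ i, t • (y i - Tg k E θ (fun i => μ • π (y i)) i) +
      (1 - t) • rot π (Real.pi * (1 - θ)) (y i) = 0) : y = 0 :=
  penL (C := 0) (c := 0) hθ ht hμ one_pos hπ (by simp) (by simp) hy fun i => by
    refine Eq.trans ?_ (h i)
    have : (fun i => μ • π (y i)) = μ • fun i => π (y i) := rfl
    rw [this, map_smul, Tg_N]; simp

end Crest.Agent.N218.Pm.Sq

end
end

-- ▼ part N218/Pm/Sq1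

/-!
# Row 218, block ALG (helper45): seams and ends of the arcs
-/

set_option autoImplicit false
set_option linter.unusedVariables false
set_option linter.unusedSectionVars false

open Set Topology unitInterval

noncomputable section

namespace Crest.Agent.N218.Pm.Sq

section gen
variable {B B' B'' : Type} [TopologicalSpace B] [TopologicalSpace B'] {k : ℕ} {E : Type}
  [NormedAddCommGroup E] [NormedSpace ℝ E]

/-- the same partial map over `b` and over `b'` -/
def At (A : PM B k E) (b : B) (A' : PM B' k E) (b' : B') : Prop :=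
  ∀ y, ((b, y) ∈ A.O ↔ (b', y) ∈ A'.O) ∧ ((b, y) ∈ A.O → A.P (b, y) = A'.P (b', y))

theorem At.rfl' (A : PM B k E) (b : B) : At A b A b := fun _ => ⟨Iff.rfl, fun _ => rfl⟩
theorem At.symm {A : PM B k E} {b : B} {A' : PM B' k E} {b' : B'} (h : At A b A' b') :
    At A' b' A b := fun y => ⟨(h y).1.symm, fun m => ((h y).2 ((h y).1.2 m)).symm⟩
theorem At.trans {A : PM B k E} {b : B} {A' : PM B' k E} {b' : B'} {A'' : PM B'' k E} {b'' : B''}
    (h : At A b A' b') (h' : ∀ y, ((b', y) ∈ A'.O ↔ (b'', y) ∈ A''.O) ∧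
      ((b', y) ∈ A'.O → A'.P (b', y) = A''.P (b'', y))) :
    ∀ y, ((b, y) ∈ A.O ↔ (b'', y) ∈ A''.O) ∧ ((b, y) ∈ A.O → A.P (b, y) = A''.P (b'', y)) :=
  fun y => ⟨(h y).1.trans (h' y).1, fun m => ((h y).2 m).trans ((h' y).2 ((h y).1.1 m))⟩

theorem at_le {c : ℝ} (A A' : PM (B × ℝ) k E) {b : B × ℝ} (h : b.2 ≤ c) :
    At (PM.glue c A A') b A b := fun y => by simp [PM.glue, h]
theorem at_gt {c : ℝ} (A A' : PM (B × ℝ) k E) {b : B × ℝ} (h : c < b.2) :
    At (PM.glue c A A') b A' b := fun y => by simp [PM.glue, not_le.2 h]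

theorem At.noZ {A : PM B k E} {b : B} {A' : PM B' k E} {b' : B'} (h : At A b A' b')
    (hn : A.n b = A'.n b') {δ : ℝ} (z : A'.NoZ δ b') : A.NoZ δ b := fun y t ht hy m e =>
  z y t ht hy ((h _).1.1 m) (by rw [← (h _).2 m, ← hn]; exact e)

theorem At.F {A : PM B k E} {b : B} {A' : PM B' k E} {b' : B'} (h : At A b A' b')
    (hn : A.n b = A'.n b') (δ : ℝ) (y : V k E) :
    ((b, y) ∈ (A.F (tau δ)).O ↔ (b', y) ∈ (A'.F (tau δ)).O) ∧
      ((b, y) ∈ (A.F (tau δ)).O → (A.F (tau δ)).h (b, y) = (A'.F (tau δ)).h (b', y)) :=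
  ⟨and_congr_right fun _ => (h _).1, fun m => by
    change A.P _ + _ • A.n b _ = A'.P _ + _ • A'.n b' _
    rw [(h _).2 m.2, hn]; rfl⟩

theorem sm_F {A A' : PM B k E} (h : ∀ b, At A b A' b ∧ A.n b = A'.n b) (δ : ℝ) :
    Pb.Sm (A.F (tau δ)) (A'.F (tau δ)) :=
  ⟨Set.ext fun x => ((h x.1).1.F (h x.1).2 δ x.2).1, fun x m => ((h x.1).1.F (h x.1).2 δ x.2).2 m⟩

theorem glue_ok {c : ℝ} {A A' : PM (B × ℝ) k E} (hA : A.Ok) (hA' : A'.Ok)
    (h : ∀ b, At A (b, c) A' (b, c)) (hn : ∀ b, A.n (b, c) = A'.n (b, c)) :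
    (PM.glue c A A').Ok := by
  have cs : Continuous fun x : (B × ℝ) × V k E => x.1.2 := by fun_prop
  have le : ∀ x ∈ (PM.glue c A A').O, x.1.2 ≤ c → x ∈ A.O ∧ (PM.glue c A A').P x = A.P x :=
    fun x m l => ⟨(at_le A A' l x.2).1.1 m, (at_le A A' l x.2).2 m⟩
  have ge : ∀ x ∈ (PM.glue c A A').O, c ≤ x.1.2 → x ∈ A'.O ∧ (PM.glue c A A').P x = A'.P x := by
    rintro ⟨⟨b, s⟩, y⟩ m l
    rcases l.eq_or_lt with rfl | l
    · exact ⟨(h b y).1.1 (le _ m le_rfl).1, (le _ m le_rfl).2.trans ((h b y).2 (le _ m le_rfl).1)⟩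
    · exact ⟨(at_gt A A' l y).1.1 m, (at_gt A A' l y).2 m⟩
  have le' : ∀ x ∈ A.O, x.1.2 ≤ c → x ∈ (PM.glue c A A').O := fun x m l => (at_le A A' l x.2).1.2 m
  have ge' : ∀ x ∈ A'.O, c ≤ x.1.2 → x ∈ (PM.glue c A A').O := by
    rintro ⟨⟨b, s⟩, y⟩ m l
    rcases l.eq_or_lt with rfl | l
    · exact le' _ ((h b y).1.2 m) le_rfl
    · exact (at_gt A A' l y).1.2 m
  refine ⟨?_, fun x m => ?_, ?_, fun x m => ?_, fun K hK R => ?_, ?_, fun b y => ?_, fun b y => ?_⟩
  · have : (PM.glue c A A').O =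
        (A.O ∩ {x | x.1.2 < c}) ∪ (A'.O ∩ {x | c < x.1.2}) ∪ (A.O ∩ A'.O) := by
      ext x
      constructor
      · intro m
        rcases lt_trichotomy x.1.2 c with l | l | l
        · exact .inl (.inl ⟨(le x m l.le).1, l⟩)
        · exact .inr ⟨(le x m l.le).1, (ge x m l.ge).1⟩
        · exact .inl (.inr ⟨(ge x m l.le).1, l⟩)
      · rintro ((⟨a, l⟩ | ⟨a, l⟩) | ⟨a, b⟩)
        exacts [le' x a (le_of_lt l), ge' x a (le_of_lt l),
          (le_total x.1.2 c).elim (le' x a) (ge' x b)]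
    rw [this]
    exact ((hA.op.inter (isOpen_lt cs continuous_const)).union
      (hA'.op.inter (isOpen_lt continuous_const cs))).union (hA.op.inter hA'.op)
  · exact (le_total x.1.2 c).elim (fun l => le' _ (hA.inv x (le x m l).1) l)
      fun l => ge' _ (hA'.inv x (ge x m l).1) l
  · classical
    refine ContinuousOn.if (p := fun x : (B × ℝ) × V k E => x.1.2 ≤ c) (fun x m => ?_)
      (hA.ct.mono fun x m => (le x m.1 ?_).1) (hA'.ct.mono fun x m => (ge x m.1 ?_).1)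
    · have e : x.1.2 = c := frontier_le_subset_eq cs continuous_const m.2
      exact (le x m.1 e.le).2.symm.trans (ge x m.1 e.ge).2
    · exact (isClosed_le cs continuous_const).closure_subset m.2
    · exact closure_minimal (t := {x : (B × ℝ) × V k E | c ≤ x.1.2}) (fun x l => (not_le.1 l).le)
        (isClosed_le continuous_const cs) m.2
  · rcases le_total x.1.2 c with l | l
    · rw [(le x m l).2, (le _ (le' _ (hA.inv x (le x m l).1) l) l).2, hA.eq x (le x m l).1]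
    · rw [(ge x m l).2, (ge _ (ge' _ (hA'.inv x (ge x m l).1) l) l).2, hA'.eq x (ge x m l).1]
  · convert ((hA.pp K hK R).inter_right (isClosed_le cs (continuous_const (y := c)))).union
      ((hA'.pp K hK R).inter_right (isClosed_le (continuous_const (y := c)) cs)) using 1
    ext x
    constructor
    · rintro ⟨m, a, b⟩
      rcases le_total x.1.2 c with l | l
      · exact .inl ⟨⟨(le x m l).1, a, (le x m l).2 ▸ b⟩, l⟩
      · exact .inr ⟨⟨(ge x m l).1, a, (ge x m l).2 ▸ b⟩, l⟩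
    · rintro (⟨⟨m, a, b⟩, l⟩ | ⟨⟨m, a, b⟩, l⟩)
      · exact ⟨le' x m l, a, (le x (le' x m l) l).2 ▸ b⟩
      · exact ⟨ge' x m l, a, (ge x (ge' x m l) l).2 ▸ b⟩
  · exact hA.nc.if_le hA'.nc continuous_snd continuous_const fun b e => by
      obtain ⟨b, s⟩ := b
      obtain rfl : s = c := e
      exact hn b
  · simp only [PM.glue]; split_ifs; exacts [hA.ne b y, hA'.ne b y]
  · simp only [PM.glue]; split_ifs; exacts [hA.ni b y, hA'.ni b y]

theorem wn_ok {A : PM B k E} (hA : A.Ok) {n : B → V k E →L[ℝ] V k E} (h1 : Continuous n)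
    (h2 : ∀ b y, n b (sh k E y) = sh k E (n b y)) (h3 : ∀ b y, n b y = 0 → y = 0) : (A.wn n).Ok :=
  ⟨hA.op, hA.inv, hA.ct, hA.eq, hA.pp, h1, h2, fun b y => h3 b _⟩

theorem mn_mn' (y : V k E) : mn (mn y) = mn y := by
  have h : ∀ i : Ix k, i + 2 ^ k + 2 ^ k = i := fun i => by
    have : ((2 ^ (k + 1) : ℕ) : Ix k) = 0 := ZMod.natCast_self _
    push_cast at this
    linear_combination this
  funext i; simp only [mn, h]; module

theorem mn_lin (t : ℝ) (a b : V k E) : mn (a + t • b) = mn a + t • mn b := by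
  funext i; simp only [mn, Pi.add_apply, Pi.smul_apply]; module

/-- a linear member of a family whose pencil is injective on odd vectors has no free zero -/
theorem noZ_lin {A : PM B k E} {b : B} (L : V k E →L[ℝ] V k E) (hP : ∀ y, A.P (b, y) = L y)
    (hL : ∀ y, mn (L y) = L (mn y)) (hn : ∀ y, mn (A.n b y) = A.n b (mn y))
    (h : ∀ t ∈ Icc (0 : ℝ) 1, ∀ w, mn w = w → t • L w + (1 - t) • A.n b w = 0 → w = 0) (δ : ℝ) :
    A.NoZ δ b := fun y t ht _ _ e => h t ht _ (mn_mn' y) (by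
  have := congrArg mn e
  rw [mn_lin, hP, hL, hn, mn_mn', sub_eq_add_neg y, ← neg_smul, mn_lin, mn_mn', map_add,
    map_smul] at this
  refine Eq.trans ?_ (this.trans (funext fun i => by simp [mn]))
  module)
end gen

theorem cl_le {t : ℝ} (h : t ≤ 0) : cl t = 0 := max_eq_left ((min_le_right _ _).trans h)
theorem cl_ge {t : ℝ} (h : 1 ≤ t) : cl t = 1 := by rw [cl, min_eq_left h, max_eq_right zero_le_one]
theorem cl_mid {t : ℝ} (h : t ∈ Icc (0 : ℝ) 1) : cl t = t := by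
  rw [cl, min_eq_right h.2, max_eq_right h.1]

variable {X E₁ E₂ : Type} [TopologicalSpace X] [NormedAddCommGroup E₁] [InnerProductSpace ℂ E₁]
  [NormedAddCommGroup E₂] [InnerProductSpace ℂ E₂] {D : Data X E₁ E₂} {c κ R₀ M : ℝ} {k : ℕ}

theorem seam1 (hD : D.Ok c κ R₀ M) (T : V k E₁ →L[ℝ] V k E₁) (x : X) :
    At (D.a₁ k T) (x, 1) (D.a₂ k T) (x, 1) := fun w =>
  ⟨forall_congr' fun i => (hD.r₁ x 1 _ le_rfl).1, fun m => by
    simp only [Data.a₁, Data.a₂, sub_self, cl_le (le_refl (0 : ℝ)), cl_le (t := 1 - 2) (by norm_num),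
      zero_smul, zero_add, sub_zero, one_smul]
    congr 1
    funext i
    rw [(hD.r₁ x 1 _ le_rfl).2 ((hD.r₁ x 1 _ le_rfl).1.1 (m i))]⟩

theorem seam2 (θ : ℝ) (x : X) {s : ℝ} (hs : 3 ≤ s) :
    At (D.a₂ k (Tg k E₁ θ)) (x, s) (D.K k) (x, θ, 0) := fun w =>
  ⟨Iff.rfl, fun m => by
    simp only [Data.a₂, Data.K, cl_ge (t := s - 1) (by linarith), cl_ge (t := s - 2) (by linarith),
      one_smul, sub_self, zero_smul, add_zero, Tg_zero]
    rfl⟩

theorem seam3 (θ : ℝ) (x : X) {s : ℝ} (hs : s ≤ 3) :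
    At (D.a₃ k (Tg k E₂ θ)) (x, s) (D.K k) (x, 0, θ) := fun w => by
  simp only [Data.a₃, Data.K, cl_le (t := s - 4) (by linarith), cl_le (t := s - 3) (by linarith),
    one_smul, sub_zero, zero_smul, add_zero, Tg_zero, mem_ofPred_eq]
  exact ⟨Iff.rfl, fun _ => rfl⟩

theorem seam4 (hD : D.Ok c κ R₀ M) (T : V k E₂ →L[ℝ] V k E₂) (x : X) :
    At (D.a₃ k T) (x, 5) (D.a₄ k T) (x, 5) := fun w => by
  simp only [Data.a₃, Data.a₄, cl_ge (t := 5 - 4) (by norm_num), cl_ge (t := 5 - 3) (by norm_num),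
    one_smul, sub_zero, zero_smul, zero_add, sub_self, mem_ofPred_eq]
  refine ⟨forall_congr' fun i => (hD.l₂ x 0 _ le_rfl).1.symm, fun m => ?_⟩
  congr 3
  funext i
  exact ((hD.l₂ x 0 _ le_rfl).2 (m i)).symm

theorem seam5 (x : X) (a b : ℝ) : At (D.K k) (x, a + 1, b) (D.K k) (x, a, b + 1) := fun w => by
  simp only [Data.K, mem_ofPred_eq, Tg_succ (E := E₁), Tg_succ' (E := E₂), sh_apply]
  exact ⟨⟨fun h i => by simpa using h (i + 1), fun h i => h _⟩, fun _ => rfl⟩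

theorem nu_cont (hD : D.Ok c κ R₀ M) {T : Type} [TopologicalSpace T] [FiniteDimensional ℂ E₁]
    [FiniteDimensional ℂ E₂] {x : T → X} {a b : T → ℝ} (hx : Continuous x) (ha : Continuous a)
    (hb : Continuous b) : Continuous fun t => D.nu k (x t) (a t) (b t) :=
  continuous_clm_apply.2 fun w => continuous_pi fun i =>
    ((rot_cont (hD.p₁.ct.comp hx) ha).clm_apply continuous_const).prodMk
      ((rot_cont (hD.p₂.ct.comp hx) hb).clm_apply continuous_const)

theorem nu_inj (hD : D.Ok c κ R₀ M) (x : X) (a b : ℝ) (w : V k (E₁ × E₂)) (h : D.nu k x a b w = 0) :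
    w = 0 := funext fun i => Prod.ext (rot_inj (hD.p₁.id x) (congrArg Prod.fst (congrFun h i)))
      (rot_inj (hD.p₂.id x) (congrArg Prod.snd (congrFun h i)))

theorem nu_zero (x : X) : D.nu k x 0 0 = 1 := ContinuousLinearMap.ext fun w => funext fun i =>
  Prod.ext (rot_zero _ _) (rot_zero _ _)

theorem mn_Tg {E : Type} [NormedAddCommGroup E] [InnerProductSpace ℂ E] (θ : ℝ) (y : V k E) :
    mn (Tg k E θ y) = Tg k E θ (mn y) := by
  rw [mn_yk, mn_yk]; exact Fo.mn_mu (hq k) _ _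

/-- no free zero at the left end -/
theorem noZ_L (hD : D.Ok c κ R₀ M) {θ : ℝ} (hθ : θ ∈ Icc (0 : ℝ) 1) (x : X) {s : ℝ} (hs : s ≤ 0)
    (δ : ℝ) : ((D.a₁ k (Tg k E₁ θ)).wn fun b => D.nu k b.1 (Real.pi * (1 - θ)) 0).NoZ δ (x, s) := by
  let S : V k (E₁ × E₂) →L[ℝ] V k E₁ := NL k (ContinuousLinearMap.fst ℝ E₁ E₂)
  let A : E₁ →L[ℝ] E₁ × E₂ := (ContinuousLinearMap.inl ℝ E₁ E₂).comp
    (D.C x + D.μ • (D.π₁ x).restrictScalars ℝ)
  refine noZ_lin (1 - (NL k A).comp ((Tg k E₁ θ).comp S)) (fun w => funext fun i => ?_)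
    (fun w => ?_) (fun w => mn_N ((rot (D.π₁ x) _).prodMap (rot (D.π₂ x) _)) w)
    (fun t ht w hw e => ?_) δ
  · simp only [PM.wn, Data.a₁, (hD.l₁ x s _ hs).2]
    exact Prod.ext rfl (sub_zero _).symm
  · change mn (w - fun i => A (Tg k E₁ θ (fun i => _) i)) = mn w - fun i => A (Tg k E₁ θ (S (mn w)) i)
    rw [sub_eq_add_neg, ← neg_one_smul ℝ, mn_lin, mn_N, mn_Tg, neg_one_smul, ← sub_eq_add_neg]
    exact congrArg (fun v => mn w - fun i => A (Tg k E₁ θ v i))
      (mn_N (ContinuousLinearMap.fst ℝ E₁ E₂) w)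
  · have h1 : s1 w = 0 := penL hθ ht hD.hμ hD.hc (hD.p₁.id x) (hD.Cn x) (fun y => (hD.Cp x y).1)
      ((mn_N (ContinuousLinearMap.fst ℝ E₁ E₂) w).trans (by rw [hw]; rfl))
      fun i => congrArg Prod.fst (congrFun e i)
    refine funext fun i => Prod.ext (congrFun h1 i) ?_
    have : t • ((w i).2 - 0) + (1 - t) • rot (D.π₂ x) 0 (w i).2 = 0 :=
      congrArg Prod.snd (congrFun e i)
    rw [rot_zero] at this
    change (w i).2 = 0
    linear_combination (norm := module) this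

/-- no free zero at the right end -/
theorem noZ_R (hD : D.Ok c κ R₀ M) {θ : ℝ} (hθ : θ ∈ Icc (0 : ℝ) 1) (x : X) {s : ℝ} (hs : 6 ≤ s)
    (δ : ℝ) : ((D.a₄ k (Tg k E₂ θ)).wn fun b => D.nu k b.1 0 (Real.pi * (1 - θ))).NoZ δ (x, s) := by
  let A : E₁ × E₂ →L[ℝ] E₂ := (D.μ • (D.π₂ x).restrictScalars ℝ).comp
    (ContinuousLinearMap.snd ℝ E₁ E₂)
  let J : E₂ →L[ℝ] E₁ × E₂ := ContinuousLinearMap.inr ℝ E₁ E₂
  refine noZ_lin (1 - (NL k J).comp ((Tg k E₂ θ).comp (NL k A))) (fun w => funext fun i => ?_)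
    (fun w => ?_) (fun w => mn_N ((rot (D.π₁ x) _).prodMap (rot (D.π₂ x) _)) w)
    (fun t ht w hw e => ?_) δ
  · simp only [PM.wn, Data.a₄, (hD.r₂ x (s - 5) _ (by linarith)).2]
    exact Prod.ext (sub_zero _).symm rfl
  · change mn (w - fun i => J (Tg k E₂ θ (fun i => A (w i)) i)) =
      mn w - fun i => J (Tg k E₂ θ (fun i => A (mn w i)) i)
    rw [sub_eq_add_neg, ← neg_one_smul ℝ, mn_lin, mn_N, mn_Tg, mn_N, neg_one_smul, ← sub_eq_add_neg]
  · have h1 : s2 w = 0 := penR hθ ht hD.hμ (hD.p₂.id x)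
      ((mn_N (ContinuousLinearMap.snd ℝ E₁ E₂) w).trans (by rw [hw]; rfl))
      fun i => congrArg Prod.snd (congrFun e i)
    refine funext fun i => Prod.ext ?_ (congrFun h1 i)
    have : t • ((w i).1 - 0) + (1 - t) • rot (D.π₁ x) 0 (w i).1 = 0 :=
      congrArg Prod.fst (congrFun e i)
    rw [rot_zero] at this
    change (w i).1 = 0
    linear_combination (norm := module) this

end Crest.Agent.N218.Pm.Sq

end
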